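import Crest.Agent.X212.Wz78.On
import Crest.Agent.X212.Wz78.Mu
import Crest.Agent.X212.An.Cut

-- ▼ part X212/Cut54/Alg
section

/-!
# Row 212, CUT-DAT, part 1: pointwise algebra

Self-dual parts of two-tensors in an oriented orthonormal frame, their Clifford action, and the
sign of the determinant of the self-dual parts of `(ω, Re Ω, -Im Ω)` for an arbitrary metric.
-/

set_option autoImplicit false
set_option linter.unusedSectionVars false
noncomputable section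
open Finset

namespace Crest.Agent.X212.Cut54
open Ind95 (eps sg E4 E4_eq)
open Wz78 (On On0 rr vol vol_eq sum_U2)

abbrev M4 : Type := Fin 4 → Fin 4 → ℝ

/-- self-dual (`s = 1`) and anti-self-dual (`s = -1`) components -/
def v1 (s : ℝ) (W : M4) : ℝ := W 0 1 - W 1 0 + s * (W 2 3 - W 3 2)
def v2 (s : ℝ) (W : M4) : ℝ := W 0 2 - W 2 0 + s * (W 3 1 - W 1 3)
def v3 (s : ℝ) (W : M4) : ℝ := W 0 3 - W 3 0 + s * (W 1 2 - W 2 1)

/-- determinant of three vectors -/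
def d3 (x1 x2 x3 y1 y2 y3 z1 z2 z3 : ℝ) : ℝ :=
  x1 * (y2 * z3 - y3 * z2) - x2 * (y1 * z3 - y3 * z1) + x3 * (y1 * z2 - y2 * z1)

/-- determinant of the (anti-)self-dual parts -/
def dt (s : ℝ) (X Y Z : M4) : ℝ :=
  d3 (v1 s X) (v2 s X) (v3 s X) (v1 s Y) (v2 s Y) (v3 s Y) (v1 s Z) (v2 s Z) (v3 s Z)

/-- inner product of the (anti-)self-dual parts -/
def ip (s : ℝ) (X Y : M4) : ℝ := v1 s X * v1 s Y + v2 s X * v2 s Y + v3 s X * v3 s Y

theorem sq_lt {x1 x2 x3 y1 y2 y3 z1 z2 z3 a1 a2 a3 b1 b2 b3 c1 c2 c3 p q r : ℝ}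
    (hp : 0 < p) (hq : 0 < q) (hr : 0 < r)
    (xx : x1 * x1 + x2 * x2 + x3 * x3 = a1 * a1 + a2 * a2 + a3 * a3 + p)
    (yy : y1 * y1 + y2 * y2 + y3 * y3 = b1 * b1 + b2 * b2 + b3 * b3 + q)
    (zz : z1 * z1 + z2 * z2 + z3 * z3 = c1 * c1 + c2 * c2 + c3 * c3 + r)
    (xy : x1 * y1 + x2 * y2 + x3 * y3 = a1 * b1 + a2 * b2 + a3 * b3)
    (xz : x1 * z1 + x2 * z2 + x3 * z3 = a1 * c1 + a2 * c2 + a3 * c3)
    (yz : y1 * z1 + y2 * z2 + y3 * z3 = b1 * c1 + b2 * c2 + b3 * c3) :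
    d3 a1 a2 a3 b1 b2 b3 c1 c2 c3 ^ 2 < d3 x1 x2 x3 y1 y2 y3 z1 z2 z3 ^ 2 := by
  have g : ∀ x1 x2 x3 y1 y2 y3 z1 z2 z3 : ℝ, d3 x1 x2 x3 y1 y2 y3 z1 z2 z3 ^ 2 =
      d3 (x1 * x1 + x2 * x2 + x3 * x3) (x1 * y1 + x2 * y2 + x3 * y3) (x1 * z1 + x2 * z2 + x3 * z3)
        (x1 * y1 + x2 * y2 + x3 * y3) (y1 * y1 + y2 * y2 + y3 * y3) (y1 * z1 + y2 * z2 + y3 * z3)
        (x1 * z1 + x2 * z2 + x3 * z3) (y1 * z1 + y2 * z2 + y3 * z3)
        (z1 * z1 + z2 * z2 + z3 * z3) := fun _ _ _ _ _ _ _ _ _ => by simp only [d3]; ring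
  have e : d3 x1 x2 x3 y1 y2 y3 z1 z2 z3 ^ 2 = d3 a1 a2 a3 b1 b2 b3 c1 c2 c3 ^ 2 +
      (p * ((b2 * c3 - b3 * c2) ^ 2 + (b1 * c3 - b3 * c1) ^ 2 + (b1 * c2 - b2 * c1) ^ 2) +
       q * ((a2 * c3 - a3 * c2) ^ 2 + (a1 * c3 - a3 * c1) ^ 2 + (a1 * c2 - a2 * c1) ^ 2) +
       r * ((a2 * b3 - a3 * b2) ^ 2 + (a1 * b3 - a3 * b1) ^ 2 + (a1 * b2 - a2 * b1) ^ 2) +
       p * q * (c1 ^ 2 + c2 ^ 2 + c3 ^ 2) + p * r * (b1 ^ 2 + b2 ^ 2 + b3 ^ 2) +
       q * r * (a1 ^ 2 + a2 ^ 2 + a3 ^ 2) + p * q * r) := by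
    rw [g x1, xx, yy, zz, xy, xz, yz]; simp only [d3]; ring
  rw [e, lt_add_iff_pos_right]; positivity

section urb
variable (A : M4)

/-- components of `α i ⊗ α j` -/
def tn (i j : Fin 4) : M4 := fun k l => A i k * A j l

/-- `a α0 α1 + b α2 α3` -/
def wO (a b : ℝ) : M4 := fun k l => a * tn A 0 1 k l + b * tn A 2 3 k l
/-- `α0 α2 - α1 α3` -/
def wR : M4 := fun k l => tn A 0 2 k l - tn A 1 3 k l
/-- `-(α0 α3 + α1 α2)` -/
def wI : M4 := fun k l => -(tn A 0 3 k l + tn A 1 2 k l)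

def dA : ℝ := E4 fun i j k l => A 0 i * A 1 j * A 2 k * A 3 l

theorem urb1 : dt 1 (tn A 0 1) (wR A) (wI A) + dt (-1) (tn A 0 1) (wR A) (wI A) =
    -2 * dA A * (∑ k, A 0 k ^ 2 + ∑ k, A 1 k ^ 2) := by
  simp only [dt, d3, v1, v2, v3, tn, wR, wI, dA, E4_eq, Fin.sum_univ_four]; ring

theorem urb2 : dt 1 (tn A 2 3) (wR A) (wI A) + dt (-1) (tn A 2 3) (wR A) (wI A) =
    -2 * dA A * (∑ k, A 2 k ^ 2 + ∑ k, A 3 k ^ 2) := by
  simp only [dt, d3, v1, v2, v3, tn, wR, wI, dA, E4_eq, Fin.sum_univ_four]; ring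

theorem dt_neg {A : M4} {a b : ℝ} (hA : 0 < dA A) (ha : 0 < a) (hb : 0 < b) :
    dt 1 (wO A a b) (wR A) (wI A) < 0 := by
  have lin : ∀ s, dt s (wO A a b) (wR A) (wI A) =
      a * dt s (tn A 0 1) (wR A) (wI A) + b * dt s (tn A 2 3) (wR A) (wI A) := fun s => by
    simp only [dt, d3, v1, v2, v3, wO]; ring
  have h1 : dt 1 (wO A a b) (wR A) (wI A) + dt (-1) (wO A a b) (wR A) (wI A) ≤ 0 := by
    have e1 := urb1 A
    have e2 := urb2 A
    have p1 : 0 ≤ a * (dA A * (∑ k, A 0 k ^ 2 + ∑ k, A 1 k ^ 2)) := by positivity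
    have p2 : 0 ≤ b * (dA A * (∑ k, A 2 k ^ 2 + ∑ k, A 3 k ^ 2)) := by positivity
    rw [lin, lin]; nlinarith
  have h2 : dt (-1) (wO A a b) (wR A) (wI A) ^ 2 < dt 1 (wO A a b) (wR A) (wI A) ^ 2 := by
    refine sq_lt (p := 4 * (a * b) * dA A) (q := 4 * dA A) (r := 4 * dA A) (by positivity)
      (by positivity) (by positivity) ?_ ?_ ?_ ?_ ?_ ?_ <;>
    simp only [v1, v2, v3, wO, tn, wR, wI, dA, E4_eq] <;> ring
  by_contra! h3
  nlinarith [abs_lt_of_sq_lt_sq' h2 h3]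

end urb

section quat
variable {𝔸 : Type*} [Ring 𝔸] [Algebra ℝ 𝔸]

/-- quaternion units on the range of `e`, a complex structure `J` and a real structure `k` -/
structure Qt (e i1 i2 i3 J k : 𝔸) : Prop where
  ee : e * e = e
  e1 : e * i1 = i1
  e2 : e * i2 = i2
  e3 : e * i3 = i3
  f1 : i1 * e = i1
  f2 : i2 * e = i2
  f3 : i3 * e = i3
  m11 : i1 * i1 = -e
  m22 : i2 * i2 = -e
  m33 : i3 * i3 = -e
  m12 : i1 * i2 = i3
  m21 : i2 * i1 = -i3
  m23 : i2 * i3 = i1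
  m32 : i3 * i2 = -i1
  m31 : i3 * i1 = i2
  m13 : i1 * i3 = -i2
  JJ : J * J = -1
  Je : e * J = J * e
  J1 : i1 * J = J * i1
  J2 : i2 * J = J * i2
  J3 : i3 * J = J * i3
  kJ : k * J = -(J * k)
  ke : k * e = e * k
  k1 : k * i1 = i1 * k
  k2 : k * i2 = i2 * k
  k3 : k * i3 = i3 * k

variable {e i1 i2 i3 J k : 𝔸}

theorem mu' {a b c : 𝔸} (h : a * b = c) (x : 𝔸) : a * (b * x) = c * x := by rw [← mul_assoc, h]

theorem Qt.key (h : Qt e i1 i2 i3 J k) (u1 u2 u3 a1 a2 a3 b1 b2 b3 : ℝ) (n : ℝ)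
    (hn : n = u1 * u1 + u2 * u2 + u3 * u3) (p : ℝ) (hp : p = a1 * u1 + a2 * u2 + a3 * u3)
    (q : ℝ) (hq : q = b1 * u1 + b2 * u2 + b3 * u3) :
    (e - J * (u1 • i1 + u2 • i2 + u3 • i3)) * ((a1 • i1 + a2 • i2 + a3 • i3) * k +
      (b1 • i1 + b2 • i2 + b3 • i3) * (J * k)) * (e - J * (u1 • i1 + u2 • i2 + u3 • i3)) =
    (((1 + n) * a1 - 2 * p * u1 + 2 * (u2 * b3 - u3 * b2)) • i1 +
      ((1 + n) * a2 - 2 * p * u2 + 2 * (u3 * b1 - u1 * b3)) • i2 +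
      ((1 + n) * a3 - 2 * p * u3 + 2 * (u1 * b2 - u2 * b1)) • i3) * k +
    J * (((1 + n) * b1 - 2 * q * u1 - 2 * (u2 * a3 - u3 * a2)) • i1 +
      ((1 + n) * b2 - 2 * q * u2 - 2 * (u3 * a1 - u1 * a3)) • i2 +
      ((1 + n) * b3 - 2 * q * u3 - 2 * (u1 * a2 - u2 * a1)) • i3) * k := by
  subst hn hp hq
  simp only [mul_add, add_mul, mul_sub, sub_mul, mul_assoc, smul_mul_assoc, mul_smul_comm,
    h.ke, h.k1, h.k2, h.k3, mu' h.kJ, mu' h.Je, mu' h.J1, mu' h.J2, mu' h.J3, mu' h.JJ,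
    mu' h.ee, mu' h.e1, mu' h.e2, mu' h.e3, mu' h.f1, mu' h.f2, mu' h.f3, mu' h.m11, mu' h.m22,
    mu' h.m33, mu' h.m12, mu' h.m21, mu' h.m23, mu' h.m32, mu' h.m31, mu' h.m13, mul_neg, neg_mul,
    one_mul, neg_neg, smul_neg]
  module

theorem Qt.sq (h : Qt e i1 i2 i3 J k) (c1 c2 c3 : ℝ) :
    (c1 • i1 + c2 • i2 + c3 • i3) * (c1 • i1 + c2 • i2 + c3 • i3) =
      -((c1 ^ 2 + c2 ^ 2 + c3 ^ 2) • e) := by
  simp only [mul_add, add_mul, smul_mul_assoc, mul_smul_comm, h.m11, h.m22, h.m33, h.m12, h.m21,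
    h.m23, h.m32, h.m31, h.m13]
  module

/-- the compression to `U` does not vanish if the determinant is negative -/
theorem Qt.ne (h : Qt e i1 i2 i3 J k) (he : e ≠ 0) {κ : ℝ} (hκ : κ ≠ 0) (hk : e * (k * k) = κ • e)
    {u1 u2 u3 a1 a2 a3 b1 b2 b3 : ℝ} (hu : u1 * u1 + u2 * u2 + u3 * u3 = 1)
    (hd : d3 u1 u2 u3 a1 a2 a3 b1 b2 b3 < 0) :
    (e - J * (u1 • i1 + u2 • i2 + u3 • i3)) * ((a1 • i1 + a2 • i2 + a3 • i3) * k +
      (b1 • i1 + b2 • i2 + b3 • i3) * (J * k)) * (e - J * (u1 • i1 + u2 • i2 + u3 • i3)) ≠ 0 := by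
  rw [h.key _ _ _ _ _ _ _ _ _ 1 hu.symm _ rfl _ rfl]
  generalize hc1 : ((1 + 1) * a1 - _ + _ : ℝ) = c1
  generalize hc2 : ((1 + 1) * a2 - _ + _ : ℝ) = c2
  generalize hc3 : ((1 + 1) * a3 - _ + _ : ℝ) = c3
  generalize ((1 + 1) * b1 - _ - _ : ℝ) = d1
  generalize ((1 + 1) * b2 - _ - _ : ℝ) = d2
  generalize ((1 + 1) * b3 - _ - _ : ℝ) = d3'
  have ck : ∀ c1 c2 c3 : ℝ, k * (c1 • i1 + c2 • i2 + c3 • i3) = (c1 • i1 + c2 • i2 + c3 • i3) * k :=
    fun _ _ _ => by simp only [mul_add, add_mul, smul_mul_assoc, mul_smul_comm, h.k1, h.k2, h.k3]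
  have ce : ∀ c1 c2 c3 : ℝ, (c1 • i1 + c2 • i2 + c3 • i3) * e = c1 • i1 + c2 • i2 + c3 • i3 :=
    fun _ _ _ => by simp only [add_mul, smul_mul_assoc, h.f1, h.f2, h.f3]
  have cq := h.sq c1 c2 c3
  specialize ce c1 c2 c3
  have ck1 := ck c1 c2 c3
  have ck2 := ck d1 d2 d3'
  generalize c1 • i1 + c2 • i2 + c3 • i3 = C at *
  generalize d1 • i1 + d2 • i2 + d3' • i3 = D at *
  intro h0
  have h1 : C * (k * k) + J * D * (k * k) = 0 := by
    rw [← mul_assoc, ← mul_assoc, ← add_mul, h0, zero_mul]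
  have h2 : C * (k * k) - J * D * (k * k) = 0 := by
    have := congrArg (k * ·) h0
    simp only [mul_add, mul_zero, ← mul_assoc, ck1, h.kJ, neg_mul] at this
    rwa [mul_assoc J k D, ck2, ← sub_eq_add_neg, mul_assoc C, ← mul_assoc J, mul_assoc _ k] at this
  have h3 : (2 * κ) • C = 0 := by
    have : C * (k * k) = κ • C := by rw [← ce, mul_assoc, hk, mul_smul_comm]
    rw [mul_smul, ← this, two_smul, ← add_zero (0 : 𝔸)]
    nth_rewrite 1 [← h1]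
    rw [← h2]; abel
  rw [smul_eq_zero_iff_right (mul_ne_zero two_ne_zero hκ)] at h3
  rw [h3, zero_mul, eq_comm, neg_eq_zero, smul_eq_zero_iff_left he] at cq
  have z1 : c1 = 0 := by nlinarith [sq_nonneg c1, sq_nonneg c2, sq_nonneg c3]
  have z2 : c2 = 0 := by nlinarith [sq_nonneg c1, sq_nonneg c2, sq_nonneg c3]
  have z3 : c3 = 0 := by nlinarith [sq_nonneg c1, sq_nonneg c2, sq_nonneg c3]
  have : d3 u1 u2 u3 a1 a2 a3 b1 b2 b3 = (u2 * a3 - u3 * a2) ^ 2 + (u3 * a1 - u1 * a3) ^ 2 +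
      (u1 * a2 - u2 * a1) ^ 2 := by
    simp only [d3]
    linear_combination (-a1 / 2) * (hc1.trans z1) + (-a2 / 2) * (hc2.trans z2) +
      (-a3 / 2) * (hc3.trans z3) - (a1 ^ 2 + a2 ^ 2 + a3 ^ 2) * hu
  rw [this] at hd
  exact absurd hd (not_lt.2 (by positivity))

end quat

end Crest.Agent.X212.Cut54
end
end

-- ▼ part X212/Cut54/Crit

/-!
# Row 212, CUT-DAT, part 2: the pointwise criterion for `Cut.OK.om` and `Cut.OK.q0`

`Cut.Pos k B F x`: there are covector components `α 0 .. α 3` with `o(α) > 0`,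
`∑ f dg ∧ dh = a α01 + b α23` and `∑ dg ∧ dh ⊗ s = (α02 - α13) ⊗ s₀ - (α03 + α12) ⊗ i s₀`.
-/

set_option autoImplicit false
set_option linter.unusedSectionVars false
noncomputable section
open scoped Manifold ContDiff Topology InnerProductSpace
open Finset

namespace Crest.Agent.X212.Cut54
open Ind95 (eps sg E4 E4_eq)
open Wz78 An

section idx
variable {ι : Type} [Fintype ι]

/-- components of a two-tensor in the frame `U` -/
def cW (U : Fin 4 → ι → ℝ) (w : ι → ι → ℝ) : M4 := fun i j => ∑ a, ∑ b, U i a * U j b * w a b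

/-- the self-dual projection in an oriented orthonormal frame -/
def sdX (W : M4) : M4 := fun i j => (W i j - W j i + ∑ k, ∑ l, (eps i j k l : ℝ) * W k l) / 4

theorem cW_tn (U : Fin 4 → ι → ℝ) (α : Fin 4 → ι → ℝ) (i j : Fin 4) :
    cW U (fun a b => α i a * α j b) = tn (fun i k => ∑ a, U k a * α i a) i j := by
  funext k l
  simp only [cW, tn, sum_mul_sum]
  exact sum_congr rfl fun _ _ => sum_congr rfl fun _ _ => by ring

theorem cW_add (U : Fin 4 → ι → ℝ) (w w' : ι → ι → ℝ) (r s : ℝ) :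
    cW U (fun a b => r * w a b + s * w' a b) = fun k l => r * cW U w k l + s * cW U w' k l := by
  funext k l
  simp only [cW, mul_sum, ← sum_add_distrib]
  exact sum_congr rfl fun _ _ => sum_congr rfl fun _ _ => by ring

theorem cW_alt (U : Fin 4 → ι → ℝ) {w w' : ι → ι → ℝ} (h : ∀ a b, w a b - w b a = w' a b - w' b a)
    (k l : Fin 4) : cW U w k l - cW U w l k = cW U w' k l - cW U w' l k := by
  have : ∀ w : ι → ι → ℝ, cW U w k l - cW U w l k = ∑ a, ∑ b, U k a * U l b * (w a b - w b a) :=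
    fun w => by
      rw [cW, cW, sum_comm (f := fun a b => U l a * U k b * w a b)]
      simp only [← sum_sub_distrib]
      exact sum_congr rfl fun _ _ => sum_congr rfl fun _ _ => by ring
  simp only [this, h]

theorem sdX_sq (W : M4) :
    4 * ∑ i, ∑ j, sdX W i j * sdX W i j = v1 1 W ^ 2 + v2 1 W ^ 2 + v3 1 W ^ 2 := by
  simp [sdX, Fin.sum_univ_four, eps, sg, v1, v2, v3]; ring

variable {𝔸 : Type*} [Ring 𝔸] [Algebra ℝ 𝔸]

def i1 (γ : Fin 4 → 𝔸) : 𝔸 := (1 / 2 : ℝ) • (γ 0 * γ 1 + γ 2 * γ 3)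
def i2 (γ : Fin 4 → 𝔸) : 𝔸 := (1 / 2 : ℝ) • (γ 0 * γ 2 - γ 1 * γ 3)
def i3 (γ : Fin 4 → 𝔸) : 𝔸 := (1 / 2 : ℝ) • (γ 0 * γ 3 + γ 1 * γ 2)

variable {γ : Fin 4 → 𝔸} {p J k : 𝔸}

theorem sdX_cl (D : Ind95.Cl (0 : 𝔸 →ₗ[ℝ] ℝ) γ p) (W : M4) :
    ∑ i, ∑ j, sdX W i j • (γ i * γ j) = v1 1 W • i1 γ + v2 1 W • i2 γ + v3 1 W • i3 γ := by
  simp [sdX, Fin.sum_univ_four, eps, sg, v1, v2, v3, i1, i2, i3, D.anti 1 0 (by decide),
    D.anti 2 0 (by decide), D.anti 3 0 (by decide), D.anti 2 1 (by decide), D.anti 3 1 (by decide),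
    D.anti 3 2 (by decide)]
  module

theorem qt_cl (D : Ind95.Cl (0 : 𝔸 →ₗ[ℝ] ℝ) γ p) (JJ : J * J = -1) (Jp : J * p = p * J)
    (Jγ : ∀ i, J * γ i = γ i * J) (kJ : k * J = -(J * k)) (kp : k * p = p * k)
    (kγ : ∀ i, k * γ i = γ i * k) :
    Qt ((1 / 2 : ℝ) • (p - Ind95.om γ)) (i1 γ) (i2 γ) (i3 γ) J k := by
  have a10 := D.anti 1 0 (by decide)
  have a20 := D.anti 2 0 (by decide)
  have a21 := D.anti 2 1 (by decide)
  have a31 := D.anti 3 1 (by decide)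
  have a32 := D.anti 3 2 (by decide)
  have J' := fun i => mu' (Jγ i)
  have k' := fun i => mu' (kγ i)
  constructor <;> first | exact JJ | exact kJ | (
    simp only [i1, i2, i3, Ind95.om, mul_add, add_mul, mul_sub, sub_mul, mul_assoc, smul_mul_assoc,
      mul_smul_comm, D.s10, D.s20, D.s30, D.s21, D.s31, D.s32, D.sq', D.Pγ', D.sq, D.γP,
      D.Pγ, D.PP, a10, a20, a21, a31, a32, mul_neg, neg_neg, J', k', Jγ, kγ, Jp, kp] <;>
    module)

end idx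

variable {E : Type} [NormedAddCommGroup E] [NormedSpace ℝ E] [FiniteDimensional ℝ E]
  [MeasurableSpace E] [BorelSpace E]
  {HM : Type} [TopologicalSpace HM] {I : ModelWithCorners ℝ E HM} [I.Boundaryless]
  {M : Type} [TopologicalSpace M] [ChartedSpace HM M] [IsManifold I ∞ M]
  [MeasurableSpace M] [BorelSpace M] [SecondCountableTopology M] {ι : Type} [Fintype ι]
  {lam : Type} [Fintype lam] {m : Md M ι lam} {B : Base M ι lam} {x : M}

variable (B x) in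
/-- the self-dual part of a two-tensor -/
def sdT (w : ι → ι → ℝ) : Eu (ι × ι) := WithLp.toLp 2 fun s => ∑ t, B.sd x s t * w t.1 t.2

section on
variable {U : Fin 4 → ι → ℝ} (h : On (fun a b => B.P a b x) (fun a b c d => B.o a b c d x) U)
include h

theorem sdT_eq (w : ι → ι → ℝ) (s : ι × ι) :
    sdT B x w s = ∑ i, ∑ j, sdX (cW U w) i j * (U i s.1 * U j s.2) := by
  have e1 := fun a b => (h.pr a b).symm
  have e2 := h.vol
  have : ∀ a b, B.sd x s (a, b) * w a b = ∑ i, ∑ j, (U i a * U j b * w a b - U j a * U i b * w a b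
      + ∑ k, ∑ l, (eps i j k l : ℝ) * (U k a * U l b * w a b)) / 4 * (U i s.1 * U j s.2) :=
    fun a b => by
      simp [Base.sd, Base.a2, Base.st, e1, e2, vol, E4_eq, Fin.sum_univ_four, eps, sg]; ring
  simp only [sdT, Fintype.sum_prod_type, this]
  rw [sum_congr rfl fun c _ => sum_comm, sum_comm]
  refine sum_congr rfl fun i _ => ?_
  rw [sum_congr rfl fun c _ => sum_comm, sum_comm]
  refine sum_congr rfl fun j _ => ?_
  simp only [← sum_mul, ← sum_div, sum_add_distrib, sum_sub_distrib, sdX, cW, mul_sum]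
  congr 3
  rw [sum_congr rfl fun c _ => sum_comm, sum_comm]
  refine sum_congr rfl fun i _ => ?_
  rw [sum_congr rfl fun c _ => sum_comm, sum_comm]

theorem norm_sdT (w : ι → ι → ℝ) :
    (2 * ‖sdT B x w‖) ^ 2 = v1 1 (cW U w) ^ 2 + v2 1 (cW U w) ^ 2 + v3 1 (cW U w) ^ 2 := by
  rw [← sdX_sq, ← h.n2, mul_pow, EuclideanSpace.real_norm_sq_eq, Fintype.sum_prod_type]
  simp only [sdT_eq h, pow_two]; norm_num

theorem c2_sdT (H : m.OK I B) (w : ι → ι → ℝ) : m.c2 x (sdT B x w) =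
    v1 1 (cW U w) • i1 (rr U fun a => m.ρ a x) + v2 1 (cW U w) • i2 (rr U fun a => m.ρ a x) +
      v3 1 (cW U w) • i3 (rr U fun a => m.ρ a x) := by
  rw [← sdX_cl (h.cl4 (H.cl x)), ← sum_U2, Md.c2, Fintype.sum_prod_type]
  simp only [sdT_eq h]

theorem qt_md (H : m.OK I B) (s : Eu lam) : Qt (m.pp B x) (i1 (rr U fun a => m.ρ a x))
    (i2 (rr U fun a => m.ρ a x)) (i3 (rr U fun a => m.ρ a x)) m.J (m.j x s) := by
  have c : ∀ {T : En (Fin m.N)}, (∀ a, T * m.ρ a x = m.ρ a x * T) → ∀ i,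
      T * rr U (fun a => m.ρ a x) i = rr U (fun a => m.ρ a x) i * T := fun h i => by
    simp only [rr, mul_sum, sum_mul, mul_smul_comm, smul_mul_assoc, h]
  rw [Md.pp, show m.om B x = _ from h.om_eq (H.cl x)]
  exact qt_cl (h.cl4 (H.cl x)) H.Jsq (H.Jp x) (c fun a => H.Jρ a x) (H.jJ x s)
    (by rw [j_p H, H.pj]) (c fun a => H.jρ a x s)

theorem dA_eq (α : Fin 4 → ι → ℝ) : dA (fun i k => ∑ a, U k a * α i a) =
    ∑ a, ∑ b, ∑ c, ∑ d, B.o a b c d x * (α 0 a * α 1 b * α 2 c * α 3 d) := by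
  have e2 := h.vol
  have : ∀ i j k l, (∑ a, U i a * α 0 a) * (∑ a, U j a * α 1 a) * (∑ a, U k a * α 2 a) *
      (∑ a, U l a * α 3 a) = ∑ a, ∑ b, ∑ c, ∑ d,
        α 0 a * α 1 b * α 2 c * α 3 d * (U i a * U j b * U k c * U l d) := fun i j k l => by
    simp only [sum_mul, mul_sum]
    rw [sum_congr rfl fun c _ => sum_congr rfl fun _ _ => sum_comm, sum_congr rfl fun c _ => sum_comm,
      sum_comm, sum_congr rfl fun c _ => sum_congr rfl fun _ _ => sum_comm,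
      sum_congr rfl fun c _ => sum_comm, sum_congr rfl fun c _ => sum_congr rfl fun _ _ => sum_comm]
    exact sum_congr rfl fun _ _ => sum_congr rfl fun _ _ => sum_congr rfl fun _ _ =>
      sum_congr rfl fun _ _ => by ring
  simp only [dA, this, Ind95.E4_sum, Ind95.E4_mul, e2, vol, mul_comm (E4 _)]

end on

theorem sdT_add (w w' : ι → ι → ℝ) (r : ℝ) :
    sdT B x (fun a b => r * w a b + w' a b) = r • sdT B x w + sdT B x w' := by
  ext s
  simp only [sdT, PiLp.add_apply, PiLp.smul_apply, smul_eq_mul, mul_sum, ← sum_add_distrib]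
  exact sum_congr rfl fun _ _ => by ring

theorem c2_alt (hB : B.OK I) (H : m.OK I B) (w : ι → ι → ℝ) :
    m.c2 x (sdT B x w) = ∑ a, ∑ b, ((w a b - w b a) / 2) • rp m B x (a, b) := by
  have e : m.c2 x (sdT B x w) = ∑ a, ∑ b, w a b • rp m B x (a, b) := by
    rw [← Fintype.sum_prod_type' fun a b => w a b • rp m B x (a, b)]
    simp only [Md.c2, sdT, sum_smul, Prod.mk.eta, ← sd_rho hB H, smul_sum, smul_smul]
    rw [sum_comm]
    exact sum_congr rfl fun t _ => sum_congr rfl fun s _ => by rw [sd_symm hB, mul_comm]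
  have e' : ∑ a, ∑ b, w b a • rp m B x (a, b) = -∑ a, ∑ b, w a b • rp m B x (a, b) := by
    rw [sum_comm]
    simp only [← sum_neg_distrib, ← smul_neg]
    refine sum_congr rfl fun a _ => sum_congr rfl fun b _ => ?_
    rw [rp, rp, ← neg_mul, ← rb_swap]; rfl
  simp only [div_eq_inv_mul, mul_smul, ← smul_sum, sub_smul, sum_sub_distrib, e, e']
  module

theorem pp_ne (hB : B.OK I) (H : m.OK I B) (x : M) : m.pp B x ≠ 0 := fun h0 => by
  obtain ⟨U, h⟩ := b_on hB x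
  have D := h.cl4 (H.cl x)
  have h1 : ∀ a, m.ρ a x * m.pm B x = 0 := fun a => by rw [← pp_rho hB H, h0, zero_mul]
  have h2 : rr U (fun a => m.ρ a x) 0 * m.pm B x = 0 := by
    simp only [rr, sum_mul, smul_mul_assoc, h1, smul_zero, sum_const_zero]
  have h3 : m.p x = 0 := by
    have := D.sq' 0 (m.pm B x)
    rw [h2, mul_zero, p_pm H, eq_comm, neg_eq_zero] at this
    rw [← pp_add_pm (B := B), h0, this, add_zero]
  have := H.prk x
  rw [h3] at this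
  simp at this

/-- the alternating part of `dg ⊗ dh` -/
def al (F : Fr I M ι) (g h : M → ℝ) (x : M) (a b : ι) : ℝ :=
  F.D a g x * F.D b h x - F.D b g x * F.D a h x

/-- the alternating part of `α ⊗ β` -/
def wg (α β : ι → ℝ) (a b : ι) : ℝ := α a * β b - α b * β a

/-- the pointwise positivity condition -/
def Pos (k : Cut M lam) (B : Base M ι lam) (F : Fr I M ι) (x : M) : Prop :=
  ∃ (α : Fin 4 → ι → ℝ) (p q : ℝ) (s₀ : Eu lam), 0 < p ∧ 0 < q ∧ s₀ ≠ 0 ∧ B.l x s₀ = s₀ ∧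
    0 < ∑ a, ∑ b, ∑ c, ∑ d, B.o a b c d x * (α 0 a * α 1 b * α 2 c * α 3 d) ∧
    (∀ a b, (k.w.map fun t => t.1 x * al F t.2.1 t.2.2 x a b).sum =
      p * wg (α 0) (α 1) a b + q * wg (α 2) (α 3) a b) ∧
    ∀ a b, (k.e.map fun t => al F t.2.1 t.2.2 x a b • B.l x (t.1 x)).sum =
      (wg (α 0) (α 2) a b - wg (α 1) (α 3) a b) • s₀ -
        (wg (α 0) (α 3) a b + wg (α 1) (α 2) a b) • B.il s₀

variable {k : Cut M lam} {F : Fr I M ι}

theorem om_eq (k : Cut M lam) : k.om B F x =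
    sdT B x fun a b => (k.w.map fun t => t.1 x * (F.D a t.2.1 x * F.D b t.2.2 x)).sum := by
  rw [Cut.om]
  induction k.w with
  | nil => ext s; simp [sdT]
  | cons t l ih => simp only [List.map_cons, List.sum_cons, ih, sdT_add]; rfl

theorem Pos.main (h : Pos k B F x) (hB : B.OK I) :
    k.om B F x ≠ 0 ∧ ∀ m : Md M ι lam, m.OK I B → k.q0 B F m x ≠ 0 := by
  obtain ⟨α, p, q, s₀, hp, hq, h0, hl, ho, hw, he⟩ := h
  obtain ⟨U, hU⟩ := b_on hB x
  rw [← dA_eq hU] at ho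
  have hd := dt_neg ho hp hq
  set A : M4 := fun i k => ∑ a, U k a * α i a
  set w : ι → ι → ℝ := fun a b => (k.w.map fun t => t.1 x * (F.D a t.2.1 x * F.D b t.2.2 x)).sum
  have a1 : ∀ i j, cW U w i j - cW U w j i = wO A p q i j - wO A p q j i := fun i j => by
    rw [cW_alt U (w' := fun a b => p * (α 0 a * α 1 b) + q * (α 2 a * α 3 b)), cW_add, cW_tn, cW_tn]
    · rfl
    intro a b
    have : w a b - w b a = (k.w.map fun t => t.1 x * al F t.2.1 t.2.2 x a b).sum := by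
      simp only [w]
      induction k.w with
      | nil => simp
      | cons t l ih => simp only [List.map_cons, List.sum_cons]; rw [← ih, al]; ring
    rw [this, hw, wg, wg]; ring
  have b1 : v1 1 (cW U w) = v1 1 (wO A p q) := by simp only [v1, a1]
  have b2 : v2 1 (cW U w) = v2 1 (wO A p q) := by simp only [v2, a1]
  have b3 : v3 1 (cW U w) = v3 1 (wO A p q) := by simp only [v3, a1]
  have hn := norm_sdT hU w
  rw [b1, b2, b3, ← om_eq k] at hn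
  have hom : k.om B F x ≠ 0 := fun h0 => by
    rw [h0, norm_zero, mul_zero, zero_pow two_ne_zero] at hn
    have z1 : v1 1 (wO A p q) = 0 := by nlinarith [sq_nonneg (v2 1 (wO A p q)), sq_nonneg (v3 1 (wO A p q))]
    have z2 : v2 1 (wO A p q) = 0 := by nlinarith [sq_nonneg (v1 1 (wO A p q)), sq_nonneg (v3 1 (wO A p q))]
    have z3 : v3 1 (wO A p q) = 0 := by nlinarith [sq_nonneg (v1 1 (wO A p q)), sq_nonneg (v2 1 (wO A p q))]
    simp [dt, d3, z1, z2, z3] at hd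
  refine ⟨hom, fun m H => ?_⟩
  have Q := qt_md hU H s₀
  have hc := c2_sdT hU H w
  rw [b1, b2, b3, ← om_eq k] at hc
  have hR := c2_sdT hU H fun a b => 1 * (α 0 a * α 2 b) + (-1) * (α 1 a * α 3 b)
  have hI := c2_sdT hU H fun a b => (-1) * (α 0 a * α 3 b) + (-1) * (α 1 a * α 2 b)
  rw [cW_add, cW_tn, cW_tn] at hR hI
  have eR : (fun k l => 1 * tn A 0 2 k l + (-1) * tn A 1 3 k l) = wR A := by
    funext k l; simp only [wR]; ring
  have eI : (fun k l => (-1) * tn A 0 3 k l + (-1) * tn A 1 2 k l) = wI A := by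
    funext k l; simp only [wI]; ring
  rw [eR, c2_alt hB H] at hR
  rw [eI, c2_alt hB H] at hI
  have hT : (k.e.map fun t => m.c2 x (B.dd F t.2.1 t.2.2 x) * m.j x (t.1 x)).sum =
      ∑ a, ∑ b, (1 / 2 : ℝ) • (rp m B x (a, b) *
        m.j x (k.e.map fun t => al F t.2.1 t.2.2 x a b • B.l x (t.1 x)).sum) := by
    induction k.e with
    | nil => simp
    | cons t l ih =>
      simp only [List.map_cons, List.sum_cons, ih, map_add, map_smul, H.jl, mul_add, smul_add,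
        sum_add_distrib]
      rw [show B.dd F t.2.1 t.2.2 x = sdT B x fun a b => F.D a t.2.1 x * F.D b t.2.2 x from rfl,
        c2_alt hB H]
      simp only [sum_mul, smul_mul_assoc, mul_smul_comm, smul_smul, al, div_eq_inv_mul, mul_one]
  have hpos : 0 < 2 * ‖k.om B F x‖ := mul_pos two_pos (norm_pos_iff.2 hom)
  set n := 2 * ‖k.om B F x‖
  have := Q.ne (pp_ne hB H x) (κ := ‖s₀‖ ^ 2)
    (pow_ne_zero _ (norm_ne_zero_iff.2 h0))
    (by rw [H.jsq, hl, mul_smul_comm, pp_p H]) (u1 := n⁻¹ * v1 1 (wO A p q))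
    (u2 := n⁻¹ * v2 1 (wO A p q)) (u3 := n⁻¹ * v3 1 (wO A p q))
    (a1 := v1 1 (wR A)) (a2 := v2 1 (wR A)) (a3 := v3 1 (wR A))
    (b1 := v1 1 (wI A)) (b2 := v2 1 (wI A)) (b3 := v3 1 (wI A))
    (by field_simp; linarith)
    (by have := mul_neg_of_pos_of_neg (inv_pos.2 hpos) hd
        simp only [dt, d3] at this ⊢; linarith)
  rw [← hR, ← hI] at this
  intro hq0
  apply this
  have e1 : k.pi B F m x = (1 / 2 : ℝ) • (m.pp B x - m.J * ((n⁻¹ * v1 1 (wO A p q)) • i1 (rr U fun a => m.ρ a x) +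
      (n⁻¹ * v2 1 (wO A p q)) • i2 (rr U fun a => m.ρ a x) +
      (n⁻¹ * v3 1 (wO A p q)) • i3 (rr U fun a => m.ρ a x))) := by
    simp only [Cut.pi, hc, mul_smul, ← smul_add, mul_smul_comm, n]
  rw [Cut.q0, e1, hT, smul_mul_assoc, smul_mul_assoc, mul_smul_comm, smul_smul,
    smul_eq_zero_iff_right (by norm_num)] at hq0
  rw [← hq0]
  congr 2
  simp only [he, map_sub, map_smul, H.jil, sum_mul, ← sum_add_distrib, smul_mul_assoc, mul_sub,
    mul_smul_comm, wg]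
  exact sum_congr rfl fun a _ => sum_congr rfl fun b _ => by module

/-- the criterion for `Cut.OK` -/
theorem ok_of_pos (hB : B.OK I)
    (sm : ContMDiff 𝓘(ℝ, ℝ × ℝ) I ∞ fun y : ℝ × ℝ => k.γ (y.1 : UnitAddCircle) y.2)
    (h0 : ∀ θ s, s ≤ 0 → k.γ θ s = k.x0) (h1 : ∀ θ s, 1 ≤ s → k.γ θ s = k.γ 0 1)
    (sw : ∀ t ∈ k.w, F.Cb t.1 ∧ F.Cd t.2.1 ∧ F.Cd t.2.2)
    (se : ∀ t ∈ k.e, F.Cb t.1 ∧ F.Cd t.2.1 ∧ F.Cd t.2.2)
    (h : ∀ θ s, Pos k B F (k.γ θ s)) : k.OK B F :=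
  ⟨sm, h0, h1, sw, se, fun θ s => ((h θ s).main hB).1, fun m H θ s => ((h θ s).main hB).2 m H⟩

end Crest.Agent.X212.Cut54
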