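import Crest.Agent.X212.Cut54.Glue
import Crest.Agent.X212.Line51.Rl
import Crest.Agent.X212.Orx52.Pos
import Crest.Agent.X212.Line51.Rod
import Crest.Agent.X212.Orx52.Rod
import Crest.Agent.X212.Wd38.Defs
import Crest.Agent.X212.An.Syn
import Crest.Agent.X212.M.Lit

-- ▼ part X212/Cut54/Sph
section

/-!
# Row 212, CUT-DAT, part 5: spheres with two complex charts
-/

set_option autoImplicit false
set_option linter.unusedSectionVars false
noncomputable section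
open scoped Manifold ContDiff Topology InnerProductSpace ComplexConjugate
open Set Filter Function Module
open Crest.Agent.R208.F Crest.Agent.X212.Dr59 Crest.Agent.X212.Int54 Crest.Agent.X212.Pj41

namespace Crest.Agent.X212.Cut54
open An
open Line51 (dc dc_mul dc_add dc_star dc_congr dc_const mf_re mf_im md_of fsm_re fsm_im rl iL)

variable {E : Type} [NormedAddCommGroup E] [NormedSpace ℝ E] [FiniteDimensional ℝ E]
  {HM : Type} [TopologicalSpace HM] {I : ModelWithCorners ℝ E HM} [I.Boundaryless]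
  {M : Type} [TopologicalSpace M] [ChartedSpace HM M] [IsManifold I ∞ M]
  {lam : Type} [Fintype lam]

/-- the data of one chart: `Re dz ∧ Im dz + Re dw ∧ Im dw` and `conj (dz ∧ dw) ⊗ s` -/
def loc (γ : UnitAddCircle → ℝ → M) (il : En lam) (z w : M → ℂ) (s : M → Eu lam) : Cut M lam where
  γ := γ
  w := [(1, fun x => (z x).re, fun x => (z x).im), (1, fun x => (w x).re, fun x => (w x).im)]
  e := [(s, fun x => (z x).re, fun x => (w x).re), (-s, fun x => (z x).im, fun x => (w x).im),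
    (fun x => -il (s x), fun x => (z x).re, fun x => (w x).im),
    (fun x => -il (s x), fun x => (z x).im, fun x => (w x).re)]

variable {γ : UnitAddCircle → ℝ → M} {o : M → Ext E} {l : M → En lam} {il : En lam} {z w z' w' : M → ℂ}
  {s s' : M → Eu lam} {x : M} {O O' : Set M}

variable (I) in
/-- a complex chart of the sphere with a section of the line -/
structure Ch (γ : UnitAddCircle → ℝ → M) (o : M → Ext E) (l : M → En lam) (il : En lam) (O : Set M)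
    (z w : M → ℂ) (s : M → Eu lam) : Prop where
  op : IsOpen O
  sz : ∀ x ∈ O, FSm I z x
  sw : ∀ x ∈ O, FSm I w x
  ss : ∀ x ∈ O, FSm I s x
  ne : ∀ x ∈ O, s x ≠ 0
  l1 : ∀ x ∈ O, l x (s x) = s x
  l2 : ∀ x ∈ O, l x (il (s x)) = il (s x)
  ori : ∀ x ∈ O, 0 < tp E (o x) * tp E (cw4 (dc I z x : E →ₗ[ℝ] ℂ) (dc I w x))

theorem Ch.smOn (h : Ch I γ o l il O z w s) : SmOn I (loc γ il z w s) O := by
  have a : ContMDiffOn I 𝓘(ℝ, ℝ) ∞ (fun x => (z x).re) O := fun x hx => (fsm_re (h.sz x hx)).contMDiffWithinAt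
  have b : ContMDiffOn I 𝓘(ℝ, ℝ) ∞ (fun x => (z x).im) O := fun x hx => (fsm_im (h.sz x hx)).contMDiffWithinAt
  have c : ContMDiffOn I 𝓘(ℝ, ℝ) ∞ (fun x => (w x).re) O := fun x hx => (fsm_re (h.sw x hx)).contMDiffWithinAt
  have d : ContMDiffOn I 𝓘(ℝ, ℝ) ∞ (fun x => (w x).im) O := fun x hx => (fsm_im (h.sw x hx)).contMDiffWithinAt
  have e : ContMDiffOn I 𝓘(ℝ, Eu lam) ∞ s O := fun x hx => (h.ss x hx).contMDiffWithinAt
  have f : ContMDiffOn I 𝓘(ℝ, Eu lam) ∞ (fun x => -il (s x)) O :=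
    (il.contMDiff.comp_contMDiffOn e).neg
  simp only [SmOn, loc, List.forall_mem_cons, List.not_mem_nil, false_imp_iff, implies_true, and_true]
  exact ⟨⟨⟨contMDiffOn_const, a, b⟩, contMDiffOn_const, c, d⟩, ⟨e, a, c⟩, ⟨e.neg, b, d⟩, ⟨f, a, d⟩, f, b, c⟩

theorem Ch.wv (h : Ch I γ o l il O z w s) (hx : x ∈ O) (u v : E) :
    wv I (loc γ il z w s).w x u v = ka (dc I z x) u v + ka (dc I w x) u v := by
  simp [Cut54.wv, loc, dw, wg, ka, mf_re (md_of (h.sz x hx)), mf_im (md_of (h.sz x hx)),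
    mf_re (md_of (h.sw x hx)), mf_im (md_of (h.sw x hx))]
  ring

theorem Ch.ev (h : Ch I γ o l il O z w s) (hx : x ∈ O) (u v : E) :
    ev I (loc γ il z w s).e (l x) x u v = cs il (cb (dc I z x) (dc I w x) u v) (s x) := by
  simp [Cut54.ev, loc, dw, wg, cb, cs, mf_re (md_of (h.sz x hx)), mf_im (md_of (h.sz x hx)),
    mf_re (md_of (h.sw x hx)), mf_im (md_of (h.sw x hx)), h.l1 x hx, h.l2 x hx]
  module

theorem posL_one {o : Ext E} {l : En lam} {s : Eu lam} (a b : E →L[ℝ] ℂ) (hs : s ≠ 0) (hl : l s = s)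
    (ho : 0 < tp E o * tp E (cw4 (a : E →ₗ[ℝ] ℂ) b)) {c : ℝ} (hc : 0 < c) :
    PosL o l il (fun u v => c * (ka a u v + ka b u v)) fun u v => c • cs il (cb a b u v) s :=
  posL_of (s := c • s) hc hc (smul_ne_zero hc.ne' hs) (by rw [map_smul, hl]) ho
    (fun u v => by rw [mul_add]; rfl) fun u v => by
      rw [cs, cs, map_smul, smul_add, smul_comm c, smul_comm c]; rfl

theorem posL_two {o : Ext E} {l : En lam} {s : Eu lam} (a b a' b' : E →L[ℝ] ℂ) {z h : ℂ}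
    {g κ c₁ c₂ : ℝ} (hz : z ≠ 0) (hh : h ≠ 0)
    (hg : 0 < g) (hκ : 0 < κ) (p1 : 0 ≤ c₁) (p2 : 0 ≤ c₂) (p3 : 0 < c₁ + c₂)
    (ha : ∀ v, a' v = h * b v) (e1 : ∀ v, (g * z * b' v).re = -(conj z * a v).re)
    (e2 : ∀ v, (z * b' v + g * conj z * a v).im = 0) (hi : il * il = -1) (hs : s ≠ 0) (hl : l s = s)
    (hl' : l (il s) = il s) (ho : 0 < tp E o * tp E (cw4 (a : E →ₗ[ℝ] ℂ) b)) :
    PosL o l il (fun u v => c₁ * (ka a u v + ka b u v) + c₂ * (ka a' u v + ka b' u v))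
      fun u v => c₁ • cs il (cb a b u v) s +
        c₂ • cs il (cb a' b' u v) (cs il (κ * h * conj z ^ 2) s) := by
  have := posL_mix (a := a.toLinearMap) (b := b.toLinearMap) (a' := a'.toLinearMap)
    (b' := b'.toLinearMap) hz hh hg hκ p1 p2 p3 (fun v => ha v) (fun v => e1 v) (fun v => e2 v)
    hi hs hl hl' ho
  simp only [ContinuousLinearMap.coe_coe] at this
  exact this

theorem Ch.posL (h : Ch I γ o l il O z w s) (hx : x ∈ O) {c : ℝ} (hc : 0 < c) :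
    PosL (o x) (l x) il (fun u v => c * Cut54.wv I (loc γ il z w s).w x u v)
      fun u v => c • Cut54.ev I (loc γ il z w s).e (l x) x u v := by
  simp only [h.wv hx, h.ev hx]
  exact posL_one _ _ (h.ne x hx) (h.l1 x hx) (h.ori x hx) hc

variable (I) in
/-- the transition between the charts `(z, w)` and `(w', z')` at a point of the sphere -/
def Tr (il : En lam) (z w w' z' : M → ℂ) (s s' : M → Eu lam) (x : M) : Prop :=
  ∃ (h : M → ℂ) (L κ : ℝ), FSm I h x ∧ h x ≠ 0 ∧ w x = 0 ∧ 0 < (z x * z' x).re ∧ 0 < κ ∧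
    s' x = cs il (κ * h x * conj (z x) ^ 2) (s x) ∧ ∀ᶠ y in 𝓝 x, w' y = h y * w y ∧
      (z y * z' y).im = 0 ∧ ‖z y‖ ^ 2 + ‖z' y‖ ^ 2 = L + ‖w y‖ ^ 2 + ‖w' y‖ ^ 2

theorem Tr.posL (t : Tr I il z w w' z' s s' x) (h : Ch I γ o l il O z w s)
    (h' : Ch I γ o l il O' w' z' s') (hi : il * il = -1) (hx : x ∈ O) (hx' : x ∈ O') {c c' : ℝ}
    (p1 : 0 ≤ c) (p2 : 0 ≤ c') (p3 : 0 < c + c') : PosL (o x) (l x) il
      (fun u v => c * wv I (loc γ il z w s).w x u v + c' * wv I (loc γ il w' z' s').w x u v)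
      fun u v => c • ev I (loc γ il z w s).e (l x) x u v + c' • ev I (loc γ il w' z' s').e (l x) x u v := by
  obtain ⟨f, L, κ, hf, f0, w0, zz, hκ, hs, e⟩ := t
  have a := h.sz x hx
  have b := h.sw x hx
  have a' := h'.sz x hx'
  have b' := h'.sw x hx'
  have z0 : z x ≠ 0 := fun k => by simp [k] at zz
  have n0 := Complex.normSq_pos.2 z0
  have w1 : w' x = 0 := by rw [e.self_of_nhds.1, w0, mul_zero]
  have g : z' x = ((z x * z' x).re / Complex.normSq (z x) : ℝ) * conj (z x) := by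
    refine mul_left_cancel₀ z0 ?_
    rw [mul_left_comm, Complex.mul_conj, ← Complex.ofReal_mul, div_mul_cancel₀ _ n0.ne']
    exact Complex.ext rfl e.self_of_nhds.2.1
  have sq : ∀ {f : M → ℂ}, FSm I f x → ∀ v, dc I (fun y => f y * star (f y)) x v =
      dc I f x v * conj (f x) + f x * conj (dc I f x v) := fun hf v => by
    rw [dc_mul hf hf.star', dc_star hf]; rfl
  simp only [h.wv hx, h'.wv hx', h.ev hx, h'.ev hx', hs]
  refine posL_two _ _ _ _ z0 f0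
    (div_pos zz n0) hκ p1 p2 p3 (fun v => ?_) (fun v => ?_) (fun v => ?_) hi (h.ne x hx) (h.l1 x hx)
    (h.l2 x hx) (h.ori x hx)
  · rw [dc_congr (g := fun y => f y * w y) (e.mono fun y k => k.1), dc_mul hf b, w0, mul_zero, zero_add]
  · have k := congrArg (fun A : E →L[ℝ] ℂ => (A v).re) (dc_congr (I := I) (x := x)
      (f := fun y => z y * star (z y) + z' y * star (z' y))
      (g := fun y => (L : ℂ) + w y * star (w y) + w' y * star (w' y)) (e.mono fun y k => by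
        simp only [Complex.star_def, Complex.mul_conj, Complex.normSq_eq_norm_sq]
        exact_mod_cast k.2.2))
    have cL : FSm I (fun _ : M => (L : ℂ)) x := contMDiffAt_const
    have cL' : FSm I (fun y => (L : ℂ) + w y * star (w y)) x := cL.add (b.mul' b.star')
    simp only [dc_add (a.mul' a.star') (b'.mul' b'.star'), dc_add cL' (a'.mul' a'.star'),
      dc_add cL (b.mul' b.star'), sq a, sq b, sq a', sq b', dc_const, w0, w1] at k
    rw [g] at k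
    generalize (z x * z' x).re / Complex.normSq (z x) = r at k ⊢
    simp at k ⊢
    linarith
  · have k := congrArg (fun A : E →L[ℝ] ℝ => A v) (mf_congr (J := I) (I := 𝓘(ℝ, ℝ)) (y := x)
      (f := fun y => (z y * z' y).im) (g := fun _ => 0) (e.mono fun y k => k.2.1))
    simp only [mf_im (md_of (a.mul' b')), dc_mul a b', mf_const] at k
    rw [g] at k
    generalize (z x * z' x).re / Complex.normSq (z x) = r at k ⊢
    simp at k ⊢
    linarith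

/-- **the cut of a sphere with two charts** -/
theorem exists_mok_ch [T2Space M] [SecondCountableTopology M]
    (sm : ContMDiff 𝓘(ℝ, ℝ × ℝ) I ∞ fun y : ℝ × ℝ => γ (y.1 : UnitAddCircle) y.2)
    (h0 : ∀ θ s, s ≤ 0 → γ θ s = γ 0 0) (h1 : ∀ θ s, 1 ≤ s → γ θ s = γ 0 1)
    (h : Ch I γ o l il O z w s) (h' : Ch I γ o l il O' w' z' s') (hi : il * il = -1)
    (hc : ∀ θ s, γ θ s ∈ O ∪ O')
    (t : ∀ θ r, γ θ r ∈ O → γ θ r ∈ O' → Tr I il z w w' z' s s' (γ θ r)) :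
    ∃ (k : Cut M lam) (K : Set M), k.γ = γ ∧ K ⊆ O ∪ O' ∧ MOK I k o l il K := by
  refine exists_mok sm h0 h1 h.op h'.op h.smOn h'.smOn hc ?_
  rintro _ ⟨⟨θ, r⟩, rfl⟩ c c' p1 p2 p3 a a'
  by_cases k : c = 0
  · subst k
    rw [zero_add] at p3
    simpa only [zero_mul, zero_add, zero_smul] using h'.posL (a' p3.ne') p3
  · by_cases k' : c' = 0
    · subst k'
      rw [add_zero] at p3
      simpa only [zero_mul, add_zero, zero_smul] using h.posL (a k) p3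
    · exact (t θ r (a k) (a' k')).posL h h' hi (a k) (a' k') p1 p2 p3

/-! ### unit sections of hermitian lines, positive charts -/

variable {κ : Type} [Fintype κ] [DecidableEq κ]

/-- a column as a real vector -/
def col (S : Matrix κ Unit ℂ) : Eu (κ ⊕ κ) := rl S (EuclideanSpace.single (.inl ()) 1)

theorem col_mul {κ' : Type} [Fintype κ'] [DecidableEq κ'] (p : Matrix κ' κ ℂ) (S : Matrix κ Unit ℂ) :
    col (p * S) = rl p (col S) := by rw [col, Line51.rl_comp]; rfl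

theorem col_smul (c : ℂ) (S : Matrix κ Unit ℂ) : col (c • S) = cs (iL κ) c (col S) := by
  have : c • S = c.re • S + c.im • Complex.I • S := by
    rw [← Complex.coe_smul, ← Complex.coe_smul, smul_smul, ← add_smul, Complex.re_add_im]
  rw [this, col, map_add, map_smul, map_smul, Line51.rl_I_smul]; rfl

theorem col_ne {S : Matrix κ Unit ℂ} {p : Matrix κ κ ℂ} (h : PIso S 1 p) : col S ≠ 0 := fun e => by
  have := col_mul S.conjTranspose S
  rw [e, map_zero, h.src, col, Line51.rl_one] at this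
  simpa using congrArg (fun v : Eu (Unit ⊕ Unit) => v (.inl ())) this

theorem li_rl {κ' : Type} [Fintype κ'] [DecidableEq κ'] {u : Matrix κ' κ ℂ} {p : Matrix κ κ ℂ}
    {q : Matrix κ' κ' ℂ} (h : PIso u p q) : LI (rl p) (iL κ) (rl q) (iL κ') (rl u) :=
  ⟨by rw [← Line51.rl_ct, ← Line51.rl_comp, h.src], by rw [← Line51.rl_ct, ← Line51.rl_comp, h.tgt],
    Line51.rl_comp_iL _⟩

theorem ch_of (ψ : PartialDiffeomorph 𝓘(ℝ, ℂ × ℂ) I (ℂ × ℂ) M ∞) (hO : IsOpen O) (hs : O ⊆ ψ.target)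
    (ho : Orx52.Pos 𝓘(ℝ, ℂ × ℂ) I ψ ψ.source Orx52.oV o) {p : M → Matrix κ κ ℂ}
    {S : M → Matrix κ Unit ℂ} (hS : Line51.Uni I (fun _ => 1) p S O) :
    Ch I γ o (fun x => rl (p x)) (iL κ) O (fun x => (ψ.symm x).1) (fun x => (ψ.symm x).2)
      fun x => col (S x) := by
  have sm : ∀ x ∈ O, ContMDiffAt I 𝓘(ℝ, ℂ × ℂ) ∞ ψ.symm x := fun x hx =>
    ψ.contMDiffOn_invFun.contMDiffAt (ψ.open_target.mem_nhds (hs hx))
  have a : ∀ x ∈ O, FSm I (fun x => (ψ.symm x).1) x := fun x hx =>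
    contDiffAt_fst.comp_contMDiffAt (sm x hx)
  have b : ∀ x ∈ O, FSm I (fun x => (ψ.symm x).2) x := fun x hx =>
    contDiffAt_snd.comp_contMDiffAt (sm x hx)
  have l1 : ∀ x ∈ O, rl (p x) (col (S x)) = col (S x) := fun x hx => by
    rw [← col_mul, (hS.iso x hx).left]
  refine ⟨hO, a, b, fun x hx => (Line51.fsm_rl (hS.sm x hx)).clm_apply contMDiffAt_const,
    fun x hx => col_ne (hS.iso x hx), l1, fun x hx => ?_, fun x hx => ?_⟩
  · rw [← mul_apply_eq_comp, ← Line51.iL_mul, mul_apply_eq_comp, l1 x hx]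
  · have := ho.symm subset_rfl x (ψ.image_source_eq_target.symm ▸ hs hx)
    rw [mul_comm] at this
    convert this using 3
    have e : Orx52.oV (ψ.symm x) = cw4 (LinearMap.fst ℝ ℂ ℂ) (LinearMap.snd ℝ ℂ ℂ) := by
      simp only [Orx52.oV, Orx52.pr, Orx52.px, Orx52.oZ_eq, map_mul, pb_io]; rfl
    rw [pm_apply, e, cw4, cw4, pb_w4]
    have e1 : (dc I (fun x => (ψ.symm x).1) x : E →ₗ[ℝ] ℂ) =
        LinearMap.fst ℝ ℂ ℂ ∘ₗ (mf I 𝓘(ℝ, ℂ × ℂ) ψ.symm x : E →ₗ[ℝ] ℂ × ℂ) := LinearMap.ext fun v =>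
      Sob92.dv_clm (e := fun _ => v) (ContinuousLinearMap.fst ℝ ℂ ℂ) ((sm x hx).mdifferentiableAt ne0)
    have e2 : (dc I (fun x => (ψ.symm x).2) x : E →ₗ[ℝ] ℂ) =
        LinearMap.snd ℝ ℂ ℂ ∘ₗ (mf I 𝓘(ℝ, ℂ × ℂ) ψ.symm x : E →ₗ[ℝ] ℂ × ℂ) := LinearMap.ext fun v =>
      Sob92.dv_clm (e := fun _ => v) (ContinuousLinearMap.snd ℝ ℂ ℂ) ((sm x hx).mdifferentiableAt ne0)
    rw [e1, e2]
    rfl

end Crest.Agent.X212.Cut54
end
end

-- ▼ part X212/Cut54/Rod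
section

/-!
# Row 212, CUT-DAT, part 6: the cut round a bounded rod

`RS v a b k c₁ c₂`: a rod of slope `b` between vertices `(a, b, c₁)` and `(b, -a + k b, c₂)`; `RS.γ`: the
meridians of its sphere; `RS.exists_mok`: the cut for a toric line of degree `k - 2` on the sphere.
-/

set_option autoImplicit false
set_option linter.unusedSectionVars false
noncomputable section
open scoped Manifold ContDiff Topology ComplexConjugate Real
open Set Filter Function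
open Crest.Agent.R208.F Crest.Agent.X212.Pj41
open Crest.Agent.X212.Rod53 Crest.Agent.X212.Glue52
open Crest.Agent.X212.Line51 hiding Uni

namespace Crest.Agent.X212.Cut54
open An

variable {EN HN : Type} [NormedAddCommGroup EN] [NormedSpace ℝ EN] [FiniteDimensional ℝ EN]
  [TopologicalSpace HN] {IN : ModelWithCorners ℝ EN HN} [IN.Boundaryless]
  {N : Type} [TopologicalSpace N] [ChartedSpace HN N] [IsManifold IN ∞ N] [T2Space N]
  {T : Tb IN N} {v : ℝ → Z2} {a b : Z2} {k : ℤ} {c₁ c₂ : ℝ}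

theorem dt_nx (a b : Z2) (k : ℤ) : Rod53.dt b (-a + k • b) = Rod53.dt a b := by simp [Rod53.dt]; ring

theorem uni_nx (hu : Uni a b) (k : ℤ) : Uni b (-a + k • b) := by
  unfold Rod53.Uni at *; rwa [dt_nx]

theorem rod_nx (hu : Uni a b) {w : (Circle × ℂ) × ℝ} (hw : w ∈ Ur v b) :
    T.rod v (uni_nx hu k) w = T.rod v hu.symm (iv (tw k w.1), w.2) := T.nf_injective v <| by
  rw [T.nf_rod _ hw, T.nf_rod _ (w := (iv (tw k w.1), w.2)) (hw.imp_left (mt tw_ne.1)),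
    T.Φr_tw k hw, T.Φr_iv]

/-- the transition between consecutive vertex charts -/
theorem vtx_nx (hu : Uni a b) {Z Z' : ℂ × ℂ} (hZ : Z ∈ Uv v a b c₁) (hZ' : Z' ∈ Uv v b (-a + k • b) c₂)
    (h : Z.1 ≠ 0) (h' : Z'.2 ≠ 0) : T.vtx v hu c₁ Z = T.vtx v (uni_nx hu k) c₂ Z' ↔
      hR c₁ Z = (iv (tw k (hL c₂ Z').1), (hL c₂ Z').2) := by
  rw [T.vtx_eq_R hu hZ h, T.vtx_eq_L _ hZ' h', rod_nx hu (hL_mem hZ' h')]
  exact ⟨(T.rod v hu.symm).injOn (hR_mem hZ h) ((hL_mem hZ' h').imp_left (mt tw_ne.1)), congrArg _⟩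

theorem tr_of {Z Z' : ℂ × ℂ} (h' : Z'.2 ≠ 0)
    (e : hR c₁ Z = (iv (tw k (hL c₂ Z').1), (hL c₂ Z').2)) :
    Z'.1 = ((‖Z.1‖ * ‖Z'.2‖⁻¹ : ℝ) : ℂ) * (dir Z.1 ^ k : Circle) * Z.2 ∧
      Z.1 * Z'.2 = (‖Z.1‖ * ‖Z'.2‖ : ℝ) ∧
      ‖Z.1‖ ^ 2 + ‖Z'.2‖ ^ 2 = c₂ - c₁ + ‖Z.2‖ ^ 2 + ‖Z'.1‖ ^ 2 := by
  have e1 : dir Z.1 = (dir Z'.2)⁻¹ := congrArg (fun w => w.1.1) e
  have e2 : ((2 * ‖Z.1‖ : ℝ) : ℂ) * Z.2 = ((2 * ‖Z'.2‖ : ℝ) : ℂ) * Z'.1 * (dir Z'.2 ^ k : Circle) :=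
    congrArg (fun w => w.1.2) e
  have e3 : tm c₁ Z = tm c₂ Z' := congrArg Prod.snd e
  have n' : (‖Z'.2‖ : ℂ) ≠ 0 := by exact_mod_cast norm_ne_zero_iff.2 h'
  refine ⟨?_, ?_, by unfold tm at e3; linarith⟩
  · have := (dir Z'.2 ^ k).coe_ne_zero
    rw [e1, inv_zpow, Circle.coe_inv]
    push_cast at e2 this ⊢
    field_simp
    linear_combination (-1 / 2 : ℂ) * e2
  · conv_lhs => rw [← norm_mul_dir Z.1, ← norm_mul_dir Z'.2, e1, mul_mul_mul_comm, ← Circle.coe_mul]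
    simp

/-- a bounded rod of slope `b`, of self-intersection `-k` for the complex orientation of the charts -/
structure RS (v : ℝ → Z2) (a b : Z2) (k : ℤ) (c₁ c₂ : ℝ) : Prop where
  uni : Uni a b
  lt : c₁ < c₂
  left : Ico c₁ c₂ ⊆ Jv v a b c₁
  right : Ioc c₁ c₂ ⊆ Jv v b (-a + k • b) c₂

/-- the radii of a meridian in the two charts -/
def r₁ (L s : ℝ) : ℝ := √L * Real.sin (π / 2 * Real.smoothTransition s)
def r₂ (L s : ℝ) : ℝ := √L * Real.cos (π / 2 * Real.smoothTransition s)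

section rad
variable {L s : ℝ}

theorem r_sq (hL : 0 ≤ L) (s : ℝ) : r₁ L s ^ 2 + r₂ L s ^ 2 = L := by
  rw [r₁, r₂, mul_pow, mul_pow, ← mul_add, Real.sin_sq_add_cos_sq, mul_one, Real.sq_sqrt hL]

theorem r₁_pos (hL : 0 < L) (hs : 0 < s) : 0 < r₁ L s := by
  have := Real.smoothTransition.pos_of_pos hs
  have := Real.smoothTransition.le_one s
  have := Real.pi_pos
  exact mul_pos (Real.sqrt_pos.2 hL) (Real.sin_pos_of_pos_of_lt_pi (by positivity) (by nlinarith))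

theorem r₂_pos (hL : 0 < L) (hs : s < 1) : 0 < r₂ L s := by
  have := Real.smoothTransition.lt_one_of_lt_one hs
  have := Real.smoothTransition.nonneg s
  have := Real.pi_pos
  exact mul_pos (Real.sqrt_pos.2 hL) (Real.cos_pos_of_mem_Ioo ⟨by nlinarith, by nlinarith⟩)

theorem r₁_zero (hs : s ≤ 0) : r₁ L s = 0 := by simp [r₁, Real.smoothTransition.zero_of_nonpos hs]

theorem r₂_zero (hs : 1 ≤ s) : r₂ L s = 0 := by simp [r₂, Real.smoothTransition.one_of_one_le hs]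

theorem cd_r₁ : ContDiff ℝ ∞ (r₁ L) :=
  contDiff_const.mul (Real.contDiff_sin.comp (contDiff_const.mul Real.smoothTransition.contDiff))

theorem cd_r₂ : ContDiff ℝ ∞ (r₂ L) :=
  contDiff_const.mul (Real.contDiff_cos.comp (contDiff_const.mul Real.smoothTransition.contDiff))

/-- the meridians in the first and in the second chart -/
def m₁ (L : ℝ) (θ : UnitAddCircle) (s : ℝ) : ℂ × ℂ := (r₁ L s * θ.toCircle, 0)
def m₂ (L : ℝ) (θ : UnitAddCircle) (s : ℝ) : ℂ × ℂ := (0, r₂ L s * (θ.toCircle⁻¹ : Circle))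

theorem cm_tc (y : ℝ × ℝ) : ContMDiffAt 𝓘(ℝ, ℝ × ℝ) (𝓡 1) ∞
    (fun y : ℝ × ℝ => AddCircle.toCircle (y.1 : UnitAddCircle)) y :=
  (contMDiff_circleExp _).comp y (contDiff_const.mul contDiff_fst).contMDiff.contMDiffAt

theorem cm_m₁ : ContMDiff 𝓘(ℝ, ℝ × ℝ) IV ∞ fun y : ℝ × ℝ => m₁ L y.1 y.2 := fun y =>
  (cm_mul (cm_ofReal (cd_r₁.comp contDiff_snd).contMDiff.contMDiffAt) (cm_coe (cm_tc y))).prodMk_space
    contMDiffAt_const

theorem cm_m₂ : ContMDiff 𝓘(ℝ, ℝ × ℝ) IV ∞ fun y : ℝ × ℝ => m₂ L y.1 y.2 := fun y =>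
  contMDiffAt_const.prodMk_space
    (cm_mul (cm_ofReal (cd_r₂.comp contDiff_snd).contMDiff.contMDiffAt) (cm_coe (cm_tc y).inv))

theorem tm_m₁ (c : ℝ) (θ : UnitAddCircle) (s : ℝ) : tm c (m₁ L θ s) = c + r₁ L s ^ 2 := by
  simp [tm, m₁, Circle.norm_coe]

theorem tm_m₂ (c : ℝ) (θ : UnitAddCircle) (s : ℝ) : tm c (m₂ L θ s) = c - r₂ L s ^ 2 := by
  simp [tm, m₂, sub_eq_add_neg, Circle.norm_coe]

end rad

namespace RS
variable (S : RS v a b k c₁ c₂) (T) {θ : UnitAddCircle} {s : ℝ}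

/-- the two vertex charts -/
abbrev ψ₁ := T.vtx v S.uni c₁
abbrev ψ₂ := T.vtx v (uni_nx S.uni k) c₂

/-- the meridians of the sphere -/
def γ (θ : UnitAddCircle) (s : ℝ) : X T v :=
  if s < 1 then S.ψ₁ T (m₁ (c₂ - c₁) θ s) else S.ψ₂ T 0

include S

theorem t₁ (hs : s < 1) : tm c₁ (m₁ (c₂ - c₁) θ s) ∈ Ico c₁ c₂ := by
  have := r_sq (sub_pos.2 S.lt).le s
  have := r₂_pos (sub_pos.2 S.lt) hs
  rw [tm_m₁]
  exact ⟨by nlinarith, by nlinarith⟩

theorem t₂ (hs : 0 < s) : tm c₂ (m₂ (c₂ - c₁) θ s) ∈ Ioc c₁ c₂ := by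
  have := r_sq (sub_pos.2 S.lt).le s
  have := r₁_pos (sub_pos.2 S.lt) hs
  rw [tm_m₂]
  exact ⟨by nlinarith, by nlinarith⟩

theorem mem₁ (hs : s < 1) : m₁ (c₂ - c₁) θ s ∈ Uv v a b c₁ := Or.inr (S.left (S.t₁ hs))

theorem mem₂ (hs : 0 < s) : m₂ (c₂ - c₁) θ s ∈ Uv v b (-a + k • b) c₂ := Or.inr (S.right (S.t₂ hs))

theorem γ_lt (hs : s < 1) : S.γ T θ s = S.ψ₁ T (m₁ (c₂ - c₁) θ s) := if_pos hs

theorem γ_pos (hs : 0 < s) : S.γ T θ s = S.ψ₂ T (m₂ (c₂ - c₁) θ s) := by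
  by_cases h : s < 1
  · have p1 := r₁_pos (sub_pos.2 S.lt) hs
    have p2 := r₂_pos (sub_pos.2 S.lt) h
    rw [S.γ_lt T h, vtx_nx S.uni (S.mem₁ h) (S.mem₂ hs)
      (mul_ne_zero (Complex.ofReal_ne_zero.2 p1.ne') (Circle.coe_ne_zero _))
      (mul_ne_zero (Complex.ofReal_ne_zero.2 p2.ne') (Circle.coe_ne_zero _))]
    refine Prod.ext (Prod.ext ((dir_mul p1 _).trans ?_) (by simp [hR, hL, hyp, iv, tw, m₁, m₂])) ?_
    · exact (_root_.inv_inv _).symm.trans (congrArg Inv.inv (dir_mul p2 _).symm)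
    · show tm _ _ = tm _ _
      rw [tm_m₁, tm_m₂]
      linarith [r_sq (sub_pos.2 S.lt).le s]
  · rw [γ, if_neg h, m₂, r₂_zero (not_lt.1 h)]
    simp [Prod.mk_zero_zero]

theorem γ_zero (hs : s ≤ 0) : S.γ T θ s = S.γ T 0 0 := by
  rw [S.γ_lt T (hs.trans_lt one_pos), S.γ_lt T one_pos, m₁, m₁, r₁_zero hs, r₁_zero le_rfl]
  simp

theorem γ_one (hs : 1 ≤ s) : S.γ T θ s = S.γ T 0 1 := by
  rw [γ, γ, if_neg hs.not_gt, if_neg (lt_irrefl _)]

theorem sm_γ : ContMDiff 𝓘(ℝ, ℝ × ℝ) (𝓡 4) ∞ fun y : ℝ × ℝ => S.γ T y.1 y.2 := fun y => by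
  rcases lt_or_ge y.2 1 with h | h
  · refine (((ld_pd (S.ψ₁ T) (S.mem₁ h)).contMDiffAt).comp y (cm_m₁ y)).congr_of_eventuallyEq ?_
    exact eventually_of_mem ((isOpen_lt continuous_snd continuous_const).mem_nhds h)
      fun _ e => S.γ_lt T e
  · have h' := one_pos.trans_le h
    refine (((ld_pd (S.ψ₂ T) (S.mem₂ h')).contMDiffAt).comp y (cm_m₂ y)).congr_of_eventuallyEq ?_
    exact eventually_of_mem ((isOpen_lt continuous_const continuous_snd).mem_nhds h')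
      fun _ e => S.γ_pos T e

theorem time_lt (hs : s < 1) : T.time v (S.γ T θ s) ∈ Ico c₁ c₂ := by
  rw [S.γ_lt T hs, T.time_vtx _ (S.mem₁ hs)]; exact S.t₁ hs

theorem time_pos (hs : 0 < s) : T.time v (S.γ T θ s) ∈ Ioc c₁ c₂ := by
  rw [S.γ_pos T hs, T.time_vtx _ (S.mem₂ hs)]; exact S.t₂ hs

theorem time_mem (θ : UnitAddCircle) (s : ℝ) : T.time v (S.γ T θ s) ∈ Icc c₁ c₂ :=
  (lt_or_ge s 1).elim (fun h => Ico_subset_Icc_self (S.time_lt T h))
    fun h => Ioc_subset_Icc_self (S.time_pos T (one_pos.trans_le h))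

theorem not_off (θ : UnitAddCircle) (s : ℝ) : S.γ T θ s ∉ off T v := by
  rcases lt_or_ge s 1 with h | h
  · rw [S.γ_lt T h, vtx_mem_off _ (S.mem₁ h)]; exact fun e => e.2 rfl
  · have h' := one_pos.trans_le h
    rw [S.γ_pos T h', vtx_mem_off _ (S.mem₂ h')]; exact fun e => e.1 rfl

theorem of_time (h : T.time v (S.γ T θ s) ∈ Ioo c₁ c₂) : s ∈ Ioo (0 : ℝ) 1 := by
  constructor <;> by_contra! e
  · have := h.1
    rw [S.γ_lt T (e.trans_lt one_pos), T.time_vtx _ (S.mem₁ (e.trans_lt one_pos)), tm_m₁,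
      r₁_zero e] at this
    simp at this
  · have := h.2
    rw [S.γ_pos T (one_pos.trans_le e), T.time_vtx _ (S.mem₂ (one_pos.trans_le e)), tm_m₂,
      r₂_zero e] at this
    simp at this

variable {κ : Type} [Fintype κ] [DecidableEq κ] {m : ℝ → ℤ} {η₁ η₂ : Z2} {U : Set (X T v)}
  {p : X T v → Matrix κ κ ℂ} {σ : X T v → Matrix κ Unit ℂ} {O : X T v → Ext E4}

omit S in
theorem msc {M : Type} (u : Matrix κ Unit ℂ) (g : M → Circle) (x : M) : u * sc g x = (g x : ℂ) • u := by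
  ext i j
  simp [Matrix.mul_apply, sc, mul_comm]

variable {T} in
/-- **the cut round a bounded rod** -/
theorem exists_mok [SecondCountableTopology (X T v)]
    (o₁ : Orx52.Pos IV (𝓡 4) (S.ψ₁ T) (S.ψ₁ T).source Orx52.oV O)
    (o₂ : Orx52.Pos IV (𝓡 4) (S.ψ₂ T) (S.ψ₂ T).source Orx52.oV O) (hU : IsOpen U)
    (hγ : ∀ θ s, S.γ T θ s ∈ U) (h : TL T v m p σ U) (h₁ : ∀ t ∈ Ico c₁ c₂, Rep v m η₁ t)
    (h₂ : ∀ t ∈ Ioc c₁ c₂, Rep v m η₂ t) (he : dot (η₁ - η₂) a = k - 2) :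
    ∃ (c : Cut (X T v) (κ ⊕ κ)) (K : Set (X T v)), c.γ = S.γ T ∧ K ⊆ U ∧
      MOK (𝓡 4) c O (fun x => rl (p x)) (iL κ) K := by
  let O₁ := U ∩ ((S.ψ₁ T).target ∩ T.time v ⁻¹' (Iio c₂ ∩ {t | Rep v m η₁ t}))
  let O₂ := U ∩ ((S.ψ₂ T).target ∩ T.time v ⁻¹' (Ioi c₁ ∩ {t | Rep v m η₂ t}))
  have p₁ : IsOpen O₁ := hU.inter ((S.ψ₁ T).open_target.inter
    ((isOpen_Iio.inter isOpen_setOfPred_eventually_nhds).preimage T.continuous_time))
  have p₂ : IsOpen O₂ := hU.inter ((S.ψ₂ T).open_target.inter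
    ((isOpen_Ioi.inter isOpen_setOfPred_eventually_nhds).preimage T.continuous_time))
  have t₁ : O₁ ⊆ T.tor v := fun x hx => (S.ψ₁ T).right_inv hx.2.1 ▸
    T.vtx_mem_tor _ ((S.ψ₁ T).map_target hx.2.1)
  have t₂ : O₂ ⊆ T.tor v := fun x hx => (S.ψ₂ T).right_inv hx.2.1 ▸
    T.vtx_mem_tor _ ((S.ψ₂ T).map_target hx.2.1)
  obtain ⟨S₁, u₁, e₁⟩ := (h.mono inter_subset_left).exists_fr p₁ (tl_chi t₁ fun _ hx _ => hx.2.2.2)
  obtain ⟨S₂, u₂, e₂⟩ := (h.mono inter_subset_left).exists_fr p₂ (tl_chi t₂ fun _ hx _ => hx.2.2.2)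
  have c₁' := ch_of (γ := S.γ T) (S.ψ₁ T) p₁ (fun _ hx => hx.2.1) o₁ u₁
  have c₂' := ch_of (γ := S.γ T) (S.ψ₂ T) p₂ (fun _ hx => hx.2.1) o₂ u₂
  refine (exists_mok_ch (S.sm_γ T) (fun _ _ => S.γ_zero T) (fun _ _ => S.γ_one T)
    c₁' c₂' iL_sq (fun θ s => ?_) fun θ s x1 x2 => ?_).imp fun c => Exists.imp fun K e =>
      ⟨e.1, e.2.1.trans (union_subset inter_subset_left inter_subset_left), e.2.2⟩
  · rcases lt_or_ge s 1 with e | e
    · exact Or.inl ⟨hγ θ s, S.γ_lt T e ▸ (S.ψ₁ T).map_source (S.mem₁ e), (S.time_lt T e).2,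
        h₁ _ (S.time_lt T e)⟩
    · have e' := one_pos.trans_le e
      exact Or.inr ⟨hγ θ s, S.γ_pos T e' ▸ (S.ψ₂ T).map_source (S.mem₂ e'), (S.time_pos T e').1,
        h₂ _ (S.time_pos T e')⟩
  obtain ⟨s0, s1⟩ := S.of_time T (θ := θ) (s := s) ⟨x2.2.2.1, x1.2.2.1⟩
  have q1 := r₁_pos (sub_pos.2 S.lt) s0
  have q2 := r₂_pos (sub_pos.2 S.lt) s1
  have f1 : (S.ψ₁ T).symm (S.γ T θ s) = m₁ (c₂ - c₁) θ s :=
    S.γ_lt T s1 ▸ (S.ψ₁ T).left_inv (S.mem₁ s1)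
  have f2 : (S.ψ₂ T).symm (S.γ T θ s) = m₂ (c₂ - c₁) θ s :=
    S.γ_pos T s0 ▸ (S.ψ₂ T).left_inv (S.mem₂ s0)
  have z1 : ((S.ψ₁ T).symm (S.γ T θ s)).1 ≠ 0 :=
    f1 ▸ mul_ne_zero (Complex.ofReal_ne_zero.2 q1.ne') (Circle.coe_ne_zero _)
  have z2 : ((S.ψ₂ T).symm (S.γ T θ s)).2 ≠ 0 :=
    f2 ▸ mul_ne_zero (Complex.ofReal_ne_zero.2 q2.ne') (Circle.coe_ne_zero _)
  have w0 : ((S.ψ₁ T).symm (S.γ T θ s)).2 = 0 := f1 ▸ rfl
  generalize S.γ T θ s = x at *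
  have a1 := c₁'.sz x x1
  have a2 := c₂'.sw x x2
  have ev : ∀ᶠ y in 𝓝 x, y ∈ O₁ ∩ O₂ := (p₁.inter p₂).mem_nhds ⟨x1, x2⟩
  have tr := ((ev.and (a1.continuousAt.eventually_ne z1)).and
    (a2.continuousAt.eventually_ne z2)).mono fun y hy => tr_of hy.2 ((vtx_nx S.uni
      ((S.ψ₁ T).map_target hy.1.1.1.2.1) ((S.ψ₂ T).map_target hy.1.1.2.2.1) hy.1.2 hy.2).1
      (((S.ψ₁ T).right_inv hy.1.1.1.2.1).trans ((S.ψ₂ T).right_inv hy.1.1.2.2.1).symm))
  have rz := Rep.sub_zero x1.2.2.2 x2.2.2.2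
  have mz := (S.ψ₁ T).map_target x1.2.1
  have db : dot (η₁ - η₂) b = 0 := (dot_pm (Jr.pm (Jv.right (S.left ⟨x2.2.2.1.le, x1.2.2.1⟩)
    x2.2.2.1))).1 rz.self_of_nhds
  have cx : chi T v (η₁ - η₂) x = dir ((S.ψ₁ T).symm x).1 ^ (k - 2) := by
    conv_lhs => rw [← (S.ψ₁ T).right_inv x1.2.1]
    exact (congrArg _ (T.vtx_eq_R _ mz z1)).trans ((chi_rod0 _ (hR_mem mz z1) db).trans (he ▸ rfl))
  have sx : S₂ x = (chi T v (η₁ - η₂) x : ℂ) • S₁ x := by
    refine eq_of_dense dense_off (g := fun y => (chi T v (η₁ - η₂) y : ℂ) • S₁ y)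
      (u₂.sm x x2).continuousAt ((cm_coe (csm_chi (t₁ x1) fun _ => rz)).continuousAt.smul
        (u₁.sm x x1).continuousAt) (ev.mono fun y hy o => ?_)
    have := (msc _ _ _).symm.trans (((e₂ y hy.2 o).trans (e₁ y hy.1 o).symm).trans (msc _ _ _))
    rw [← sub_add_cancel η₁ η₂, chi_add o, mul_comm, Circle.coe_mul, mul_smul] at this
    exact smul_right_injective _ (Circle.coe_ne_zero _) this
  have n1 := norm_pos_iff.2 z1
  have n2 := norm_pos_iff.2 z2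
  refine ⟨fun y => ((‖((S.ψ₁ T).symm y).1‖ * ‖((S.ψ₂ T).symm y).2‖⁻¹ : ℝ) : ℂ) *
    (dir ((S.ψ₁ T).symm y).1 ^ k : Circle), c₂ - c₁,
    ‖((S.ψ₂ T).symm x).2‖ / ‖((S.ψ₁ T).symm x).1‖ ^ 3, cm_mul (cm_ofReal ((cm_norm a1 z1).mul
      (cm_fun (contDiffAt_inv ℝ n2.ne') (cm_norm a2 z2)))) (cm_coe (cm_zpow (cm_dir a1 z1) k)),
    mul_ne_zero (Complex.ofReal_ne_zero.2 (by positivity)) (Circle.coe_ne_zero _), w0,
    (mul_pos n1 n2).trans_eq (congrArg Complex.re tr.self_of_nhds.2.1).symm, by positivity, ?_,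
    tr.mono fun y e => ⟨e.1, congrArg Complex.im e.2.1, e.2.2⟩⟩
  show col (S₂ x) = _
  rw [sx, col_smul, cx]
  congr 1
  beta_reduce
  generalize ((S.ψ₁ T).symm x).1 = z at *
  generalize ‖((S.ψ₂ T).symm x).2‖ = r at *
  have cz : conj z = ‖z‖ * ((dir z)⁻¹ : Circle) := by rw [← dir_conj, ← Complex.norm_conj, norm_mul_dir]
  have n1' : (‖z‖ : ℂ) ≠ 0 := by exact_mod_cast n1.ne'
  have n2' : (r : ℂ) ≠ 0 := by exact_mod_cast n2.ne'
  have := (dir z).coe_ne_zero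
  rw [cz, zpow_sub]
  push_cast
  field_simp

end RS

/-! ### arbitrary signs, words -/

variable (T v) in
/-- the vertex charts of determinant one are positive -/
def VP (O : X T v → Ext E4) : Prop := ∀ a b (hu : Uni a b) c, Rod53.dt a b = 1 →
  Orx52.Pos IV (𝓡 4) (T.vtx v hu c) (Uv v a b c) Orx52.oV O

theorem vp_neg {o : N → Ext EN} {O : X T v → Ext E4} (h : Orx52.OX T v o O)
    (hτ : Orx52.Pos IT IN T.τ {z | z.2 ≠ 0} Orx52.oT o) : VP T v (-O) := fun a b hu c e => by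
  have := h.vtx hτ hu c
  rw [e, Int.cast_one, neg_smul, one_smul] at this
  exact Orx52.pos_neg_left.1 this

theorem VP.of_same {O O' : X T v → Ext E4} (h : VP T v O) (e : Int54.SameOn O' O univ) : VP T v O' :=
  fun a b hu c k => (h a b hu c k).right (fun _ => Orx52.ldp (T.vtx v hu c)) (mapsTo_univ _ _) e

theorem jv_pm {α β : Z2} {c x : ℝ} (h : x ∈ Jv v a b c) (h1 : PM a α) (h2 : PM b β) : x ∈ Jv v α β c :=
  mem_Jv.2 ((mem_Jv.1 h).mono fun _ k =>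
    ⟨fun e => (k.1 e).trans h1, k.2.1, fun e => (k.2.2 e).trans h2⟩)

theorem pm_smul {e : ℤ} (he : e = 1 ∨ e = -1) (a : Z2) : PM a (e • a) := by
  rcases he with rfl | rfl
  exacts [Or.inl (one_smul _ _).symm, Or.inr (by simp)]

theorem RS.neg (S : RS v a b k c₁ c₂) : RS v (-a) (-b) k c₁ c₂ :=
  ⟨S.uni.neg_left.neg_right, S.lt, fun _ h => jv_pm (S.left h) (.inr (neg_neg _).symm)
    (.inr (neg_neg _).symm), fun _ h => jv_pm (S.right h) (.inr (neg_neg _).symm) (.inr (by simp; abel))⟩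

open Wd38 (sq dg)

theorem nx_eq {u w u' : Z2} (hu : Uni u w) (hu' : Uni w u') :
    -(Rod53.dt u w • u) + (-sq u w u') • w = Rod53.dt w u' • u' := by
  have h1 := hu.sq
  have h2 := hu'.sq
  ext <;> simp only [Wd38.sq, Rod53.dt, Prod.fst_add, Prod.smul_fst, Prod.snd_add, Prod.smul_snd,
    Prod.fst_neg, Prod.snd_neg, smul_eq_mul] at h1 h2 ⊢
  · linear_combination (u.1 * w.2 - u.2 * w.1) * u.1 * h2 + (w.1 * u'.2 - w.2 * u'.1) * u'.1 * h1
  · linear_combination (u.1 * w.2 - u.2 * w.1) * u.2 * h2 + (w.1 * u'.2 - w.2 * u'.1) * u'.2 * h1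

theorem dot_smul' (η a : Z2) (e : ℤ) : dot η (e • a) = e * dot η a := by simp [dot]; ring
theorem dot_add' (η a b : Z2) : dot η (a + b) = dot η a + dot η b := by simp [dot]; ring

/-- the sphere of the rod `w` between `u` and `u'` -/
theorem rs_of {u w u' : Z2} (hu : Uni u w) (hu' : Uni w u') (lt : c₁ < c₂)
    (l : Ico c₁ c₂ ⊆ Jv v u w c₁) (r : Ioc c₁ c₂ ⊆ Jv v w u' c₂) :
    RS v (Rod53.dt u w • u) w (-sq u w u') c₁ c₂ :=
  ⟨(pm_smul hu u).symm.uni hu, lt, fun _ h => jv_pm (l h) (pm_smul hu u) (.refl _),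
    fun _ h => jv_pm (r h) (.refl _) (nx_eq hu hu' ▸ pm_smul hu' u')⟩

theorem dt_rs {u w : Z2} (hu : Uni u w) : Rod53.dt (Rod53.dt u w • u) w = 1 := by
  have := hu.sq
  simp only [Rod53.dt, Prod.smul_fst, Prod.smul_snd, smul_eq_mul] at this ⊢
  linear_combination this

theorem dot_rs {u w u' η₁ η₂ : Z2} (hu : Uni u w) (hu' : Uni w u') (h : dot η₁ w = dot η₂ w) :
    dot (η₁ - η₂) (Rod53.dt u w • u) = dg u w u' (dot η₁ u) (dot η₁ w) (dot η₂ u') := by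
  have := congrArg (dot η₂) (nx_eq hu hu')
  rw [dot_add', dot_neg', dot_smul' _ w, dot_smul' _ u'] at this
  rw [dot_sub, dot_smul' η₁, Wd38.dg, h]
  linarith

variable {κ : Type} [Fintype κ] [DecidableEq κ] {m : ℝ → ℤ} {η₁ η₂ : Z2} {U : Set (X T v)}
  {p : X T v → Matrix κ κ ℂ} {σ : X T v → Matrix κ Unit ℂ} {O : X T v → Ext E4}

theorem RS.exists_mok' [SecondCountableTopology (X T v)] (S : RS v a b k c₁ c₂)
    (hd : Rod53.dt a b = 1) (hO : VP T v O) (hU : IsOpen U)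
    (hs : ∀ x ∉ off T v, T.time v x ∈ Icc c₁ c₂ → x ∈ U) (h : TL T v m p σ U)
    (h₁ : ∀ t ∈ Ico c₁ c₂, Rep v m η₁ t) (h₂ : ∀ t ∈ Ioc c₁ c₂, Rep v m η₂ t)
    (he : |dot (η₁ - η₂) a| = |k - 2|) :
    ∃ (c : Cut (X T v) (κ ⊕ κ)) (K : Set (X T v)), (c.γ = S.γ T ∨ c.γ = S.neg.γ T) ∧ K ⊆ U ∧
      MOK (𝓡 4) c O (fun x => rl (p x)) (iL κ) K := by
  have key : ∀ {a b : Z2} (S : RS v a b k c₁ c₂), Rod53.dt a b = 1 → dot (η₁ - η₂) a = k - 2 →
      ∃ (c : Cut (X T v) (κ ⊕ κ)) (K : Set (X T v)), c.γ = S.γ T ∧ K ⊆ U ∧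
        MOK (𝓡 4) c O (fun x => rl (p x)) (iL κ) K := fun S hd he =>
    S.exists_mok (hO _ _ _ _ hd) (hO _ _ _ _ ((dt_nx _ _ _).trans hd)) hU
      (fun θ s => hs _ (S.not_off T θ s) (S.time_mem T θ s)) h h₁ h₂ he
  rcases abs_eq_abs.1 he with e | e
  · obtain ⟨c, K, k1, k2⟩ := key S hd e
    exact ⟨c, K, .inl k1, k2⟩
  · obtain ⟨c, K, k1, k2⟩ := key S.neg (by rw [dt_neg_left, dt_neg_right, neg_neg, hd])
      (by rw [dot_neg', e, neg_neg])
    exact ⟨c, K, .inr k1, k2⟩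

section wd
variable {s : ℤ → Z2} {n : ℤ → ℤ} {x y : ℤ}

theorem rs_wd (hxy : x ≤ y) (hu : Uni (s (x - 1)) (s x)) (hu' : Uni (s y) (s (y + 1)))
    (hm : ∀ j, x ≤ j → j ≤ y → PM (s j) (s x)) :
    RS (wd s) (Rod53.dt (s (x - 1)) (s x) • s (x - 1)) (s x) (-sq (s (x - 1)) (s x) (s (y + 1)))
      x (y + 1) := by
  have j := Ioo_subset_Jr' hm
  have e := hm y hxy le_rfl
  refine rs_of hu (e.symm.uni hu') (by exact_mod_cast Int.lt_add_one_iff.2 hxy)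
    (fun t ht => ?_) fun t ht => ?_
  · rcases ht.1.eq_or_lt with rfl | k
    exacts [mem_Jv_wd hu, Jv.of_right (j ⟨k, ht.2⟩) k]
  · rcases ht.2.eq_or_lt with rfl | k
    · have := mem_Jv_wd (a := s) (i := y + 1) (by simpa using hu')
      rw [add_sub_cancel_right] at this
      exact_mod_cast jv_pm this e (.refl _)
    · exact Jv.of_left (j ⟨ht.1, k⟩) k

/-- **the cut round the rod on the slots `x, …, y` of a word**, `|Λ · S| = |S² + 2|` -/
theorem exists_mok_wd [SecondCountableTopology (X T (wd s))] (hxy : x ≤ y)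
    (hu : Uni (s (x - 1)) (s x)) (hu' : Uni (s y) (s (y + 1)))
    (hm : ∀ j, x ≤ j → j ≤ y → s j = s x ∧ n j = n x ∨ s j = -s x ∧ n j = -n x)
    (he : |dg (s (x - 1)) (s x) (s (y + 1)) (n (x - 1)) (n x) (n (y + 1))| =
      |sq (s (x - 1)) (s x) (s (y + 1)) + 2|) {O : X T (wd s) → Ext E4} (hO : VP T (wd s) O)
    {U : Set (X T (wd s))} (hU : IsOpen U)
    (hs : ∀ z ∉ off T (wd s), T.time (wd s) z ∈ Icc (x : ℝ) (y + 1) → z ∈ U)
    {p : X T (wd s) → Matrix κ κ ℂ} {σ : X T (wd s) → Matrix κ Unit ℂ}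
    (h : TL T (wd s) (wm s n) p σ U) :
    ∃ (S : RS (wd s) (Rod53.dt (s (x - 1)) (s x) • s (x - 1)) (s x)
        (-sq (s (x - 1)) (s x) (s (y + 1))) x (y + 1))
      (c : Cut (X T (wd s)) (κ ⊕ κ)) (K : Set (X T (wd s))), (c.γ = S.γ T ∨ c.γ = S.neg.γ T) ∧
      K ⊆ U ∧ MOK (𝓡 4) c O (fun x => rl (p x)) (iL κ) K := by
  have pm : ∀ j, x ≤ j → j ≤ y → PM (s j) (s x) := fun j a b => (hm j a b).imp And.left And.left
  have hu'' := (pm y hxy le_rfl).symm.uni hu'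
  have mid : ∀ η, dot η (s x) = n x → ∀ j, x ≤ j → j ≤ y → dot η (s j) = n j := fun η e j a b => by
    rcases hm j a b with k | k <;> rw [k.1, k.2]
    exacts [e, by rw [dot_neg', e]]
  obtain ⟨η₁, a1, a2⟩ : ∃ η, dot η (s (x - 1)) = n (x - 1) ∧ dot η (s x) = n x :=
    ⟨_, dual_left hu _ _, dual_right hu _ _⟩
  obtain ⟨η₂, b1, b2⟩ : ∃ η, dot η (s x) = n x ∧ dot η (s (y + 1)) = n (y + 1) :=
    ⟨_, dual_left hu'' _ _, dual_right hu'' _ _⟩
  refine ⟨rs_wd hxy hu hu' pm, RS.exists_mok' _ (dt_rs hu) hO hU hs h (η₁ := η₁) (η₂ := η₂)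
    (fun t ht => rep_wd (i := x - 1) (j := y) (fun j a b => ?_) ⟨by push_cast; linarith [ht.1], ht.2⟩)
    (fun t ht => rep_wd (i := x) (j := y + 1) (fun j a b => ?_) ⟨ht.1, by push_cast; linarith [ht.2]⟩) ?_⟩
  · rcases a.eq_or_lt with rfl | k
    exacts [a1, mid _ a2 j (by omega) b]
  · rcases b.eq_or_lt with rfl | k
    exacts [b2, mid _ b1 j a (by omega)]
  · rw [dot_rs hu hu'' (a2.trans b1.symm), a1, a2, b2, he, ← abs_neg]
    congr 1
    ring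

end wd

end Crest.Agent.X212.Cut54
end
end

-- ▼ part X212/Cut54/Wld

/-!
# Row 212, CUT-DAT, part 7: cuts on marks and worlds

`MOK.tp` (transport `Tp.of`), `MOK.cutIn`, `MOK.lay`, `MOK.lns`, `MOK.ok_lns`, `rel_tp`.
-/

set_option autoImplicit false
set_option linter.unusedSectionVars false
noncomputable section
open scoped Manifold ContDiff Topology
open Set Filter Function
open Crest.Agent.R208.F Crest.Agent.X212.Pj41 Crest.Agent.X212.Int54
open Crest.Agent.X212.Line51 (rl iL Uni)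

namespace Crest.Agent.X212.Cut54
open An

section gen
variable {E : Type} [NormedAddCommGroup E] [NormedSpace ℝ E] [FiniteDimensional ℝ E]
  {HM : Type} [TopologicalSpace HM] {I : ModelWithCorners ℝ E HM} [I.Boundaryless]
  {M : Type} [TopologicalSpace M] [ChartedSpace HM M] [IsManifold I ∞ M] [T2Space M]
  {E' : Type} [NormedAddCommGroup E'] [NormedSpace ℝ E'] [FiniteDimensional ℝ E']
  {HM' : Type} [TopologicalSpace HM'] {I' : ModelWithCorners ℝ E' HM'} [I'.Boundaryless]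
  {M' : Type} [TopologicalSpace M'] [ChartedSpace HM' M'] [IsManifold I' ∞ M'] [T2Space M']
  {lam lam' : Type} [Fintype lam] [Fintype lam'] {o : M → Ext E} {o' : M' → Ext E'} {K Ω : Set M}

theorem xt_eq {N : Type} [NormedAddCommGroup N] [NormedSpace ℝ N] (φ : PartialDiffeomorph I I' M M' ∞)
    (f : M → N) : xt φ f = φ.target.indicator (f ∘ φ.toPartialEquiv.symm) := by
  funext z
  simp only [xt, indicator]
  rfl

theorem push_eq (φ : PartialDiffeomorph I I' M M' ∞) (v : M → CL (Eu lam) (Eu lam')) (k : Cut M lam) :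
    push φ v k = (Tp.of φ.toPartialEquiv v).cut k := by
  simp only [push, xt_eq]
  rfl

theorem MOK.congr {k : Cut M lam} {l l' : M → En lam} {il : En lam} {o₁ : M → Ext E}
    (h : MOK I k o l il K) (ho : SameOn o o₁ K) (hl : EqOn l' l K) : MOK I k o₁ l' il K :=
  ⟨h.cpt, h.sm, h.h0, h.h1, h.sub, h.sw, h.se, fun θ s => by
    obtain ⟨α, p, q, s₀, a1, a2, a3, a4, a5, a6⟩ := h.pos θ s
    rw [hl (h.sub θ s)]
    refine ⟨α, p, q, s₀, a1, a2, a3, a4, ?_, a6⟩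
    have := mul_pos (ho _ (h.sub θ s)) a5
    by_contra! e
    nlinarith [mul_nonneg (mul_self_nonneg (tp E (o (k.γ θ s)))) (neg_nonneg.2 e)]⟩

theorem MOK.supp {k : Cut M lam} {l : M → En lam} {il : En lam} (h : MOK I k o l il K) :
    k.supp ⊆ K := by
  rintro _ ⟨y, rfl⟩
  exact h.sub _ _

theorem MOK.cutIn [MeasurableSpace E] [BorelSpace E] [MeasurableSpace M] [BorelSpace M]
    [SecondCountableTopology M] {k : Cut M lam} {l : M → En lam} {il : En lam}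
    (h : MOK I k o l il K) (hs : K ⊆ Ω) : CutIn I Ω k := by
  have a : ∀ {N : Type} [NormedAddCommGroup N] [NormedSpace ℝ N] {f : M → N}, Cs I K f →
      tsupport f ⊆ Ω := fun hf =>
    (closure_minimal (support_subset_iff'.2 hf.2) h.cpt.isClosed).trans hs
  have b : ∀ {f : M → ℝ}, Cs I K f → Wrd81.Tf I Ω f := fun hf =>
    ⟨hf.1, HasCompactSupport.intro h.cpt hf.2, a hf⟩
  exact ⟨h.supp.trans hs, fun d hd => ⟨b (h.sw d hd).1, b (h.sw d hd).2.1, b (h.sw d hd).2.2⟩,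
    fun d hd => ⟨⟨(h.se d hd).1.1, HasCompactSupport.intro h.cpt (h.se d hd).1.2, a (h.se d hd).1⟩,
      b (h.se d hd).2.1, b (h.se d hd).2.2⟩⟩

variable [DecidableEq lam] [DecidableEq lam']

/-- **transport along a positive partial diffeomorphism and an isometry of lines** -/
theorem MOK.tp {k : Cut M (lam ⊕ lam)} {p : M → Matrix lam lam ℂ}
    (h : MOK I k o (fun x => rl (p x)) (iL lam) K) (φ : PartialDiffeomorph I I' M M' ∞)
    (hs : K ⊆ φ.source) (ho : SameOn o (Dr59.pm I I' φ o') K) {q : M' → Matrix lam' lam' ℂ}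
    {u : M → Matrix lam' lam ℂ} (hu : Uni I p (fun x => q (φ x)) u K) :
    MOK I' ((Tp.of φ.toPartialEquiv fun x => rl (u x)).cut k) o' (fun x => rl (q x)) (iL lam')
      (φ '' K) :=
  push_eq φ (fun x => rl (u x)) k ▸ h.push hs ho (fun x hx => Line51.fsm_rl (hu.sm x hx))
    fun x hx => li_rl (hu.iso x hx)

end gen

/-- transports of corresponding cuts correspond -/
theorem rel_tp {M M' Z Z' lam lam' mu mu' : Type} [Fintype lam] [Fintype lam'] [Fintype mu]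
    [Fintype mu'] [TopologicalSpace M] [TopologicalSpace Z] {k : Cut M lam} {k' : Cut M' lam'}
    {O : Set M} {ψ : M → M'} {u : M → CL (Eu lam) (Eu lam')} (r : k.Rel k' O ψ u)
    (φ : PartialEquiv M Z) (φ' : PartialEquiv M' Z') {v : M → CL (Eu lam) (Eu mu)}
    {v' : M' → CL (Eu lam') (Eu mu')} {U : Set Z} {Ψ : Z → Z'} {w : Z → CL (Eu mu) (Eu mu')}
    (hs : φ '' k.supp ⊆ U) (hγ : ∀ x ∈ k.supp, Ψ (φ x) = φ' (ψ x))
    (hU : ∀ z ∈ U, (z ∉ φ.target ∧ Ψ z ∉ φ'.target) ∨ ∃ x ∈ O, x ∈ φ.source ∧ φ x = z ∧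
      ψ x ∈ φ'.source ∧ Ψ z = φ' (ψ x) ∧ ∀ a a', trn (u x) a' = trn (u x) (u x a) →
        trn (w z) (v' (ψ x) a') = trn (w z) (w z (v x a))) :
    ((Tp.of φ v).cut k).Rel ((Tp.of φ' v').cut k') U Ψ w := by
  have k1 : ∀ {f : M → ℝ} {f' : M' → ℝ}, EqOn (f' ∘ ψ) f O →
      EqOn ((Tp.of φ' v').f f' ∘ Ψ) ((Tp.of φ v).f f) U := fun e z hz => by
    rcases hU z hz with ⟨a, b⟩ | ⟨x, a, b, rfl, c, d, -⟩
    · exact (indicator_of_notMem b _).trans (indicator_of_notMem a _).symm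
    · simp only [Tp.of, comp_apply, d, indicator_of_mem (φ.map_source b),
        indicator_of_mem (φ'.map_source c), φ.left_inv b, φ'.left_inv c]
      exact e a
  refine ⟨?_, fun θ s => ?_, ?_, ?_⟩
  · rintro _ ⟨y, rfl⟩
    exact hs ⟨_, ⟨y, rfl⟩, rfl⟩
  · exact (congrArg φ' (r.γ θ s)).trans (hγ _ ⟨(θ, s), rfl⟩).symm
  · exact List.forall₂_map_left_iff.2 (List.forall₂_map_right_iff.2
      (r.w.imp fun _ _ e => ⟨k1 e.1, k1 e.2.1, k1 e.2.2⟩))
  · refine List.forall₂_map_left_iff.2 (List.forall₂_map_right_iff.2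
      (r.e.imp fun _ _ e => ⟨fun z hz => ?_, k1 e.2.1, k1 e.2.2⟩))
    rcases hU z hz with ⟨a, b⟩ | ⟨x, a, b, rfl, c, d, f⟩
    · simp only [Tp.of, indicator_of_notMem a, indicator_of_notMem b, map_zero]
    · simp only [Tp.of, d, indicator_of_mem (φ.map_source b), indicator_of_mem (φ'.map_source c),
        φ.left_inv b, φ'.left_inv c]
      exact f _ _ (e.1 x a)

/-- the line condition of `rel_tp` for isometries with `w v = v' u` -/
theorem sq_rl {a b c d : Type} [Fintype a] [Fintype b] [Fintype c] [Fintype d] [DecidableEq a]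
    [DecidableEq b] [DecidableEq c] [DecidableEq d] {u : Matrix b a ℂ} {v : Matrix c a ℂ}
    {v' : Matrix d b ℂ} {w : Matrix d c ℂ} {p : Matrix a a ℂ} {p' : Matrix b b ℂ} {q : Matrix c c ℂ}
    {q' : Matrix d d ℂ} (hu : PIso u p p') (hv : PIso v p q) (hv' : PIso v' p' q') (hw : PIso w q q')
    (e : w * v = v' * u) (x : Eu (a ⊕ a)) (x' : Eu (b ⊕ b))
    (h : trn (rl u) x' = trn (rl u) (rl u x)) :
    trn (rl w) (rl v' x') = trn (rl w) (rl w (rl v x)) := by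
  have k : w.conjTranspose * v' = v * u.conjTranspose := by
    rw [← hv'.idem, ← hu.tgt, ← Matrix.mul_assoc v', ← e, ← Matrix.mul_assoc, ← Matrix.mul_assoc, hw.src,
      hv.left]
  simp only [← Line51.rl_ct, ← ContinuousLinearMap.comp_apply, ← Line51.rl_comp] at h ⊢
  rw [k, Line51.rl_comp, ContinuousLinearMap.comp_apply, h, ← ContinuousLinearMap.comp_apply,
    ← Line51.rl_comp, hu.src, hv.idem, ← Matrix.mul_assoc, hw.src, hv.left]

section world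
open M

theorem MOK.lay {Z : Mf 4} {o : Z.M → Ext Z.E} {T ι : Type} [NormedAddCommGroup T]
    [NormedSpace ℝ T] [Fintype ι] {Ω : Set (T × Z.M)} {L : Lay Z o T ι Ω} {lam : Type} [Fintype lam]
    [DecidableEq lam] (Λ : LLay L lam) {k : Cut Z.M (lam ⊕ lam)} {K : Set Z.M}
    (h : MOK Z.I k o (fun x => rl (Λ.p x)) (iL lam) K) (ho : Ori Z.I o) :
    k.OK Λ.B L.F0 ∧ ∀ t, (∀ x, (t, x) ∈ Ω) → k.OK Λ.B (L.F t) :=
  ⟨h.ok Z.dim (Λ.B_ok ho) _ (fun _ _ _ _ _ _ => rfl) (fun _ _ => rfl) rfl, fun _ ht =>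
    h.ok Z.dim (Λ.B_ok ho) _ (fun x _ a b c d => by
      exact congrFun (congrFun (congrFun (congrFun (congrFun (L.ov_F ht).symm a) b) c) d) x)
      (fun _ _ => rfl) rfl⟩

variable {X : Mf 4} {A κ : Type} [Fintype A] [Fintype κ] {Mk : Mark X A κ} {W : World Mk}
  {lam : Type} [Fintype lam] [DecidableEq lam] {N : ML Mk lam} (Λ : Lns W N)
  {k : Cut X.M (lam ⊕ lam)} {K : Set X.M}

/-- the cut on `Z c` -/
abbrev cutZ (m c : Mk.Cl) (k : Cut X.M (lam ⊕ lam)) : Cut (W.Z c).M (lam ⊕ lam) :=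
  (Tp.of (W.φ c).toPartialEquiv fun x => rl (Λ.v m c x)).cut k

theorem MOK.lns (h : MOK X.I k Mk.o (fun x => rl (N.p x)) (iL lam) K) (m c : Mk.Cl)
    (hK : Disjoint K (Mk.sys.cores c.1)) :
    MOK (W.Z c).I (cutZ Λ m c k) (W.o c) (fun z => rl ((Λ.Λ m c).p z)) (iL lam) (W.φ c '' K) :=
  have hs : K ⊆ (W.φ c).source := fun _ hx => (W.mem_src c).2 (disjoint_left.1 hK hx)
  h.tp _ hs (fun x hx => W.oφ c x (hs hx)) ((Λ.uni m c).mono hs)

/-- **the cut is admissible for all metrics of a world** -/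
theorem MOK.ok_lns (h : MOK X.I k Mk.o (fun x => rl (N.p x)) (iL lam) K) (m c : Mk.Cl)
    (hK : Disjoint K (Mk.sys.cores c.1)) {p : Prm A} (hp : p ∈ Mk.O c.1) :
    (cutZ Λ m c k).OK (Λ.B m c) (W.F m c p) :=
  ((h.lns Λ m c hK).lay _ (W.ori c)).2 p (Mark.mem_Ω _ hp)

end world

end Crest.Agent.X212.Cut54
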